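import Vale.Agent.P160.Reduction

/-! Numerical bounds for the three events. -/

noncomputable section

open Finset Filter
open scoped Topology

namespace Vale.Agent.P160

theorem ev_log_le_rpow (C a : ℝ) (ha : 0 < a) :
    ∀ᶠ n : ℕ in atTop, C * Real.log n ≤ (n : ℝ) ^ a := by
  have hc : (0:ℝ) < 1 / (|C| + 1) := by positivity
  have h := (isLittleO_log_rpow_atTop ha).bound hc
  filter_upwards [tendsto_natCast_atTop_atTop.eventually h, eventually_ge_atTop 1] with n hn h1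
  have hl : 0 ≤ Real.log n := Real.log_natCast_nonneg n
  rw [Real.norm_of_nonneg hl, Real.norm_of_nonneg (by positivity)] at hn
  have h2 : (|C| + 1) * Real.log n ≤ (n:ℝ) ^ a := by
    rw [div_mul_eq_mul_div, le_div_iff₀ (by positivity), one_mul, mul_comm] at hn
    exact hn
  have h3 : C * Real.log n ≤ |C| * Real.log n := mul_le_mul_of_nonneg_right (le_abs_self C) hl
  linarith

theorem ev_log_ge (C : ℝ) : ∀ᶠ n : ℕ in atTop, C ≤ Real.log n :=
  (Real.tendsto_log_atTop.comp tendsto_natCast_atTop_atTop).eventually_ge_atTop C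

theorem ev_loglog_le (C : ℝ) : ∀ᶠ n : ℕ in atTop, C * Real.log (Real.log n) ≤ Real.log n := by
  have hc : (0:ℝ) < 1 / (|C| + 1) := by positivity
  have h := (Real.tendsto_log_atTop.comp tendsto_natCast_atTop_atTop).eventually
    (Real.isLittleO_log_id_atTop.bound hc)
  filter_upwards [h, ev_log_ge 1] with n hn h1
  simp only [Real.norm_eq_abs, id_eq, Function.comp_apply] at hn
  have hl : 0 ≤ Real.log (Real.log n) := Real.log_nonneg h1
  rw [abs_of_nonneg hl, abs_of_nonneg (show (0:ℝ) ≤ Real.log n by linarith), div_mul_eq_mul_div,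
    le_div_iff₀ (by positivity), one_mul, mul_comm] at hn
  have h3 : C * Real.log (Real.log n) ≤ |C| * Real.log (Real.log n) :=
    mul_le_mul_of_nonneg_right (le_abs_self C) hl
  linarith

/-- The threshold for the collision probability. -/
def threshT (n : ℕ) : ℝ := Real.exp (-(Real.sqrt (n * Real.log n) / 20)) ^ 2

/-- The threshold for the number of zero coordinates. -/
def threshZ (n : ℕ) : ℕ := ⌈2 * (n : ℝ) / Real.log n⌉₊

theorem exp_neg_nine_tenths : Real.exp (-(9/10 : ℝ)) ≤ 0.46 := by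
  have h1 : Real.exp (-(9/10:ℝ)) = Real.exp (-1) * Real.exp (1/10) := by
    rw [← Real.exp_add]; norm_num
  have h2 : Real.exp (-1) ≤ 0.37 := by
    rw [Real.exp_neg, inv_le_comm₀ (Real.exp_pos _) (by norm_num)]
    have := Real.exp_one_gt_d9
    norm_num at this ⊢
    linarith
  have h3 : Real.exp (1/10:ℝ) ≤ 1 / 0.9 := by
    have := Real.exp_bound_div_one_sub_of_interval (x := (1/10:ℝ)) (by norm_num) (by norm_num)
    norm_num at this ⊢
    linarith
  rw [h1]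
  calc Real.exp (-1) * Real.exp (1/10) ≤ 0.37 * (1 / 0.9) := by gcongr
    _ ≤ 0.46 := by norm_num

theorem exp_le_pow46 (n : ℕ) {x : ℝ} (h : x ≤ -(9/10) * n) : Real.exp x ≤ (0.46:ℝ) ^ n := by
  calc Real.exp x ≤ Real.exp ((n:ℝ) * (-(9/10))) := by gcongr; linarith
    _ = Real.exp (-(9/10)) ^ n := Real.exp_nat_mul _ _
    _ ≤ _ := by gcongr; exact exp_neg_nine_tenths

theorem choose_mul_pow_le (n m : ℕ) (x : ℝ) (hx : 0 ≤ x) :
    (n.choose m : ℝ) * x ^ m ≤ (1 + x) ^ n := by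
  rcases le_or_gt m n with h | h
  · rw [add_comm, add_pow]
    refine le_trans (le_of_eq ?_) (Finset.single_le_sum (f := fun k => x ^ k * 1 ^ (n - k) * (n.choose k : ℝ))
      (fun k _ => by positivity) (Finset.mem_range.2 (Nat.lt_succ_of_le h)))
    ring
  · rw [Nat.choose_eq_zero_of_lt h]; simp; positivity

/-- Small supports. -/
theorem small_supp_bound (n k : ℕ) (hk : 64 * k ≤ n) :
    (n.choose k : ℝ) * (((n - k).choose k : ℝ) * (3/8:ℝ) ^ (n - k - k)) ≤ (0.46:ℝ) ^ n := by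
  have h1 : (n.choose k : ℝ) ≤ (65/64:ℝ) ^ n * 64 ^ k := by
    have h := choose_mul_pow_le n k (1/64) (by norm_num)
    rw [show (1 + 1/64 : ℝ) = 65/64 by norm_num, one_div_pow, mul_one_div, div_le_iff₀ (by positivity)] at h
    exact h
  have h2 : ((n - k).choose k : ℝ) ≤ (65/64:ℝ) ^ n * 64 ^ k :=
    le_trans (by exact_mod_cast Nat.choose_le_choose k (Nat.sub_le n k)) h1
  have h3 : (3/8:ℝ) ^ (n - k - k) = (3/8:ℝ) ^ n * (64/9) ^ k := by
    have he : n = (n - k - k) + 2 * k := by omega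
    calc (3/8:ℝ) ^ (n - k - k) = (3/8:ℝ) ^ (n - k - k) * ((3/8:ℝ) ^ (2 * k) * (64/9) ^ k) := by
          rw [pow_mul, ← mul_pow]; norm_num
      _ = (3/8:ℝ) ^ n * (64/9) ^ k := by rw [← mul_assoc, ← pow_add, ← he]
  calc (n.choose k : ℝ) * (((n - k).choose k : ℝ) * (3/8:ℝ) ^ (n - k - k))
      ≤ ((65/64:ℝ) ^ n * 64 ^ k) * (((65/64:ℝ) ^ n * 64 ^ k) * ((3/8:ℝ) ^ n * (64/9) ^ k)) := by
        rw [h3]; gcongr
    _ ≤ (0.46:ℝ) ^ n := by
        refine le_of_pow_le_pow_left₀ (n := 64) (by norm_num) (by positivity) ?_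
        calc (((65/64:ℝ) ^ n * 64 ^ k) * (((65/64:ℝ) ^ n * 64 ^ k) * ((3/8:ℝ) ^ n * (64/9) ^ k))) ^ 64
            = ((65/64:ℝ) ^ 128 * (3/8) ^ 64) ^ n * (64 ^ 2 * (64/9:ℝ)) ^ (64 * k) := by
              simp only [mul_pow, ← pow_mul]; ring
          _ ≤ ((65/64:ℝ) ^ 128 * (3/8) ^ 64) ^ n * (64 ^ 2 * (64/9:ℝ)) ^ n := by
              gcongr
              norm_num
          _ = ((65/64:ℝ) ^ 128 * (3/8) ^ 64 * (64 ^ 2 * (64/9:ℝ))) ^ n := by rw [← mul_pow]
          _ ≤ ((0.46:ℝ) ^ 64) ^ n := by gcongr; norm_num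
          _ = ((0.46:ℝ) ^ n) ^ 64 := by rw [← pow_mul, ← pow_mul, mul_comm]

theorem termA_bound (n k d : ℕ) (hn : 1 ≤ n) (hkn : k ≤ n) (hd1 : 4 * Real.sqrt n ≤ d)
    (hdl : (d : ℝ) * Real.log n ≤ n / 100) :
    (n.choose k : ℝ) * ((k.choose d : ℝ) / 2 ^ ((d + 1).choose 2)) ≤ (0.46:ℝ) ^ n := by
  have hn0 : (0:ℝ) < n := by exact_mod_cast hn
  have hs2 : Real.sqrt n * Real.sqrt n = n := Real.mul_self_sqrt hn0.le
  have hs0 : 0 ≤ Real.sqrt n := Real.sqrt_nonneg _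
  have hln : (0.69:ℝ) < Real.log 2 := by linarith [Real.log_two_gt_d9]
  have hln' : Real.log 2 < 0.70 := by linarith [Real.log_two_lt_d9]
  have h2n : (n.choose k : ℝ) ≤ Real.exp (n * Real.log 2) := by
    rw [Real.exp_nat_mul, Real.exp_log (by norm_num)]
    exact_mod_cast Nat.choose_le_two_pow n k
  have hkd : (k.choose d : ℝ) ≤ Real.exp (d * Real.log n) := by
    rw [Real.exp_nat_mul, Real.exp_log hn0]
    exact_mod_cast le_trans (Nat.choose_le_pow k d) (Nat.pow_le_pow_left hkn d)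
  have htwo : (2:ℝ) ^ ((d + 1).choose 2) = Real.exp (((d + 1).choose 2 : ℕ) * Real.log 2) := by
    rw [Real.exp_nat_mul, Real.exp_log (by norm_num)]
  have hc : 8 * (n:ℝ) ≤ (((d + 1).choose 2 : ℕ) : ℝ) := by
    have hdsq : 16 * (n:ℝ) ≤ (d:ℝ) * d := by
      have := mul_le_mul hd1 hd1 (by positivity) (by positivity)
      linarith
    rw [Nat.cast_choose_two]; push_cast; linarith [Nat.cast_nonneg (α := ℝ) d]
  have hlog : Real.log 2 * (8 * (n:ℝ)) ≤ Real.log 2 * (((d + 1).choose 2 : ℕ) : ℝ) :=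
    mul_le_mul_of_nonneg_left hc (by linarith)
  have hlow : 0.69 * (n:ℝ) ≤ Real.log 2 * n := mul_le_mul_of_nonneg_right hln.le hn0.le
  calc (n.choose k : ℝ) * ((k.choose d : ℝ) / 2 ^ ((d + 1).choose 2))
      ≤ Real.exp (n * Real.log 2) * (Real.exp (d * Real.log n) / 2 ^ ((d + 1).choose 2)) := by gcongr
    _ = Real.exp (n * Real.log 2 + d * Real.log n - (((d + 1).choose 2 : ℕ) : ℝ) * Real.log 2) := by
        rw [htwo, Real.exp_sub, Real.exp_add]; ring
    _ ≤ _ := exp_le_pow46 n (by linarith)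

theorem choose_le_exp_log (n m : ℕ) (hl : 0 < Real.log n) :
    (n.choose m : ℝ) ≤ Real.exp (n / Real.log n) * Real.log n ^ m := by
  have h := choose_mul_pow_le n m (1 / Real.log n) (by positivity)
  have h' : (1 + 1 / Real.log n : ℝ) ^ n ≤ Real.exp (n / Real.log n) := by
    calc (1 + 1 / Real.log n : ℝ) ^ n ≤ Real.exp (1 / Real.log n) ^ n := by
          gcongr; linarith [Real.add_one_le_exp (1 / Real.log n)]
      _ = _ := by rw [← Real.exp_nat_mul]; congr 1; ring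
  rw [one_div_pow, mul_one_div, div_le_iff₀ (by positivity)] at h
  exact le_trans h (by gcongr)

theorem log68_le : Real.log 68 ≤ 5 := by
  have h : Real.log 68 ≤ Real.log ((2:ℝ) ^ 7) := Real.log_le_log (by norm_num) (by norm_num)
  rw [Real.log_pow] at h
  push_cast at h
  linarith [Real.log_two_lt_d9]

theorem termB_bound (n m d : ℕ) (hn : 1 ≤ n) (hl : 1000 ≤ Real.log n)
    (hll : 1000 * Real.log (Real.log n) ≤ Real.log n) (hm : 2 * (n : ℝ) / Real.log n ≤ m)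
    (hmn : m ≤ n) (hdm : d ≤ m) (hdl : (d : ℝ) * Real.log n ≤ n / 100) :
    (n.choose m : ℝ) * ((m.choose d : ℝ) * (68 / Real.sqrt n) ^ (m - d)) ≤ (0.46:ℝ) ^ n := by
  have hn0 : (0:ℝ) < n := by exact_mod_cast hn
  set ℓ := Real.log n with hℓ
  set s := Real.sqrt n with hs
  have hs1 : 1 ≤ s := by rw [hs, Real.one_le_sqrt]; exact_mod_cast hn
  have hs2 : s * s = n := Real.mul_self_sqrt hn0.le
  have hℓ0 : 0 < ℓ := by linarith
  have hpowd : (n:ℝ) ^ d = Real.exp (d * ℓ) := by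
    rw [Real.exp_nat_mul, hℓ, Real.exp_log hn0]
  have h1 : (n.choose m : ℝ) ≤ Real.exp (n / ℓ) * ℓ ^ m := choose_le_exp_log n m hℓ0
  have h2 : (m.choose d : ℝ) ≤ Real.exp (d * ℓ) := by
    rw [← hpowd]
    exact_mod_cast le_trans (Nat.choose_le_pow m d) (Nat.pow_le_pow_left hmn d)
  have h3 : (68 / s) ^ (m - d) ≤ (68 / s) ^ m * Real.exp (d * ℓ) := by
    have e : m = (m - d) + d := by omega
    have h' : 1 ≤ (68 / s) ^ d * (n:ℝ) ^ d := by
      rw [← mul_pow]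
      apply one_le_pow₀
      rw [div_mul_eq_mul_div, le_div_iff₀ (by linarith), ← hs2]
      nlinarith
    calc (68 / s) ^ (m - d) ≤ (68 / s) ^ (m - d) * ((68 / s) ^ d * (n:ℝ) ^ d) :=
          le_mul_of_one_le_right (by positivity) h'
      _ = _ := by rw [← mul_assoc, ← pow_add, ← e, hpowd]
  have hbase : ℓ * (68 / s) = Real.exp (Real.log ℓ + Real.log 68 - ℓ / 2) := by
    rw [Real.exp_sub, Real.exp_add, Real.exp_log hℓ0, Real.exp_log (by norm_num)]
    have : Real.exp (ℓ / 2) = s := by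
      rw [hℓ, hs, ← Real.log_sqrt hn0.le, Real.exp_log (by positivity)]
    rw [this]; ring
  have h68 := log68_le
  have hneg : Real.log ℓ + Real.log 68 - ℓ / 2 ≤ 0 := by linarith
  calc (n.choose m : ℝ) * ((m.choose d : ℝ) * (68 / s) ^ (m - d))
      ≤ (Real.exp (n / ℓ) * ℓ ^ m) * (Real.exp (d * ℓ) * ((68 / s) ^ m * Real.exp (d * ℓ))) := by
        gcongr
    _ = Real.exp (n / ℓ + d * ℓ + d * ℓ + m * (Real.log ℓ + Real.log 68 - ℓ / 2)) := by
        rw [Real.exp_add, Real.exp_add, Real.exp_add, Real.exp_nat_mul (n := m), ← hbase, mul_pow]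
        ring
    _ ≤ _ := by
        apply exp_le_pow46
        have hm' : (m:ℝ) * (Real.log ℓ + Real.log 68 - ℓ / 2)
            ≤ (2 * (n:ℝ) / ℓ) * (Real.log ℓ + Real.log 68 - ℓ / 2) :=
          mul_le_mul_of_nonpos_right hm hneg
        have e : (2 * (n:ℝ) / ℓ) * (Real.log ℓ + Real.log 68 - ℓ / 2)
            = (n / ℓ) * (2 * Real.log ℓ + 2 * Real.log 68) - n := by field_simp
        have hnl : (n:ℝ) / ℓ * (2 * Real.log ℓ + 2 * Real.log 68 + 1) ≤ n / 20 := by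
          rw [div_mul_eq_mul_div, div_le_iff₀ hℓ0]
          have := mul_le_mul_of_nonneg_left
            (show 2 * Real.log ℓ + 2 * Real.log 68 + 1 ≤ ℓ / 20 by linarith) hn0.le
          linarith
        linarith

/-- Large supports: both error terms. -/
theorem large_supp_bound : ∀ᶠ n : ℕ in atTop, ∀ k, k ≤ n - threshZ n →
    threshZ n ≤ n ∧ 256 ≤ n ∧ ⌈4 * Real.sqrt n⌉₊ + k ≤ n ∧
    (n.choose k : ℝ) * ((k.choose ⌈4 * Real.sqrt n⌉₊ : ℝ) / 2 ^ ((⌈4 * Real.sqrt n⌉₊ + 1).choose 2)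
      + ((n - k).choose ⌈4 * Real.sqrt n⌉₊ : ℝ)
          * (68 / Real.sqrt n) ^ (n - k - ⌈4 * Real.sqrt n⌉₊)) ≤ 2 * (0.46:ℝ) ^ n := by
  filter_upwards [eventually_ge_atTop 5000, ev_log_ge 1000, ev_log_le_rpow 1000 (1/2) (by norm_num),
    ev_loglog_le 1000] with n hn hl hls hll
  have hn' : (5000:ℝ) ≤ n := by exact_mod_cast hn
  have hn0 : (0:ℝ) < n := by linarith
  rw [← Real.sqrt_eq_rpow] at hls
  set ℓ := Real.log n with hℓ
  have hℓ0 : 0 < ℓ := by linarith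
  set s := Real.sqrt n with hs
  have hs2 : s * s = n := Real.mul_self_sqrt hn0.le
  have hs0 : 0 ≤ s := Real.sqrt_nonneg _
  set d := ⌈4 * s⌉₊ with hd
  have hd1 : 4 * s ≤ d := Nat.le_ceil _
  have hd2 : (d:ℝ) ≤ 5 * s := by
    have := Nat.ceil_lt_add_one (a := 4 * s) (by positivity)
    rw [← hd] at this
    linarith
  set z := threshZ n with hz
  have hz1 : 2 * (n:ℝ) / ℓ ≤ z := Nat.le_ceil _
  have hz2 : (z:ℝ) ≤ 2 * n / ℓ + 1 := (Nat.ceil_lt_add_one (by positivity)).le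
  have hsl : s * (1000 * ℓ) ≤ s * s := mul_le_mul_of_nonneg_left hls hs0
  have hdl : (d:ℝ) * ℓ ≤ n / 100 := by
    have := mul_le_mul_of_nonneg_right hd2 hℓ0.le
    linarith
  have hdz : d ≤ z := by
    have : (d:ℝ) ≤ z := le_trans (by rw [le_div_iff₀ hℓ0]; linarith) hz1
    exact_mod_cast this
  have hzn : z ≤ n := by
    have h1 : 2 * (n:ℝ) / ℓ ≤ n / 2 := by
      rw [div_le_div_iff₀ hℓ0 (by norm_num)]
      have := mul_le_mul_of_nonneg_left (show (4:ℝ) ≤ ℓ by linarith) hn0.le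
      linarith
    have : (z:ℝ) ≤ n := by linarith
    exact_mod_cast this
  intro k hk
  refine ⟨hzn, by omega, by omega, ?_⟩
  have hA := termA_bound n k d (by omega) (by omega) hd1 hdl
  have hB := termB_bound n (n - k) d (by omega) hl hll
    (le_trans hz1 (by exact_mod_cast (show z ≤ n - k by omega))) (by omega) (by omega) hdl
  rw [Nat.choose_symm (show k ≤ n by omega)] at hB
  rw [mul_add]
  linarith

theorem mid_step_param (J lam : ℕ) (r ℓ ε : ℝ) (hJ : 1 ≤ (J:ℝ)) (hJr : (J:ℝ) ≤ r)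
    (hlam : r * r * r ≤ lam) (hℓr : 1000 * ℓ ≤ r) (hℓ : 1000 ≤ ℓ) (hε : Real.exp (-ℓ) ≤ ε) :
    4 * (1 - 1 / (4 * (J : ℝ) ^ 2)) ^ lam ≤ ε := by
  have hr0 : 0 < r := by linarith
  have hx : 1 / (4 * (J : ℝ) ^ 2) ≤ 1 := by
    rw [div_le_one (by positivity)]
    have := one_le_pow₀ (n := 2) hJ
    linarith
  have h4 : (1 - 1 / (4 * (J : ℝ) ^ 2)) ^ lam ≤ Real.exp (-(lam / (4 * (J:ℝ) ^ 2))) := by
    calc (1 - 1 / (4 * (J : ℝ) ^ 2)) ^ lam ≤ Real.exp (-(1 / (4 * (J : ℝ) ^ 2))) ^ lam := by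
          gcongr
          all_goals linarith [Real.add_one_le_exp (-(1 / (4 * (J : ℝ) ^ 2)))]
      _ = _ := by rw [← Real.exp_nat_mul]; congr 1; ring
  have h5 : r / 4 ≤ lam / (4 * (J:ℝ) ^ 2) := by
    rw [div_le_div_iff₀ (by norm_num) (by positivity)]
    have hJsq : (J:ℝ) ^ 2 ≤ r * r := by rw [sq]; exact mul_le_mul hJr hJr (by positivity) hr0.le
    have := mul_le_mul_of_nonneg_left hJsq hr0.le
    linarith
  have h6 : 4 * Real.exp (-(r/4)) ≤ Real.exp (-ℓ) := by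
    calc 4 * Real.exp (-(r/4)) ≤ Real.exp 3 * Real.exp (-(r/4)) := by
          gcongr; linarith [Real.add_one_le_exp (3:ℝ)]
      _ = Real.exp (3 + -(r/4)) := (Real.exp_add _ _).symm
      _ ≤ _ := by apply Real.exp_le_exp.2; linarith
  calc 4 * (1 - 1 / (4 * (J : ℝ) ^ 2)) ^ lam ≤ 4 * Real.exp (-(lam / (4 * (J:ℝ) ^ 2))) := by gcongr
    _ ≤ 4 * Real.exp (-(r/4)) := by gcongr
    _ ≤ _ := le_trans h6 hε

theorem exc_step_param (lam : ℕ) (P r ℓ ε : ℝ) (hP : 1 ≤ P) (hr : 16 ≤ r)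
    (hlam : 3 * Real.log P + r * r * r ≤ lam) (hℓr : 1000 * ℓ ≤ r) (hε : Real.exp (-ℓ) ≤ ε) :
    P * (5 / 8 : ℝ) ^ lam ≤ ε := by
  have hrc : r ≤ r * r * r := by
    calc r = r * 1 * 1 := by ring
      _ ≤ r * r * r := by gcongr <;> linarith
  have hlog : 0 ≤ Real.log P := Real.log_nonneg hP
  have hbase : (5 / 8 : ℝ) ≤ Real.exp (-(3/8)) := by linarith [Real.add_one_le_exp (-(3/8:ℝ))]
  calc P * (5 / 8 : ℝ) ^ lam ≤ P * Real.exp (-(3/8)) ^ lam := by gcongr
    _ = Real.exp (Real.log P) * Real.exp (lam * (-(3/8))) := by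
        rw [Real.exp_log (by linarith), ← Real.exp_nat_mul]
    _ = Real.exp (Real.log P + lam * (-(3/8))) := (Real.exp_add _ _).symm
    _ ≤ Real.exp (-ℓ) := by apply Real.exp_le_exp.2; linarith
    _ ≤ ε := hε

theorem dense_total (m z lam : ℕ) (P ε T L : ℝ) (hP : 0 < P) (hε : 0 < ε)
    (hT : T = Real.exp (-(L / 10))) :
    P * ((4 * ε) ^ m / (ε ^ z * T ^ lam)) ^ 2
      = Real.exp (Real.log P + 2 * (m * Real.log (4 * ε) - z * Real.log ε + lam * (L / 10))) := by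
  have e : (4 * ε) ^ m / (ε ^ z * T ^ lam)
      = Real.exp (m * Real.log (4 * ε) - z * Real.log ε + lam * (L / 10)) := by
    rw [Real.exp_add, Real.exp_sub, Real.exp_nat_mul, Real.exp_nat_mul, Real.exp_nat_mul,
      Real.exp_log (by positivity), Real.exp_log hε, hT, Real.exp_neg, inv_pow]
    field_simp
  rw [e, Real.exp_add (Real.log P), Real.exp_log hP, show (2:ℝ) = ((2:ℕ):ℝ) by norm_num,
    Real.exp_nat_mul]

/-- Final arithmetic for the dense event. -/
theorem dense_arith (n m z lam r ℓ L lp a b : ℝ) (hn : 100000 ≤ n) (hℓ : 1000 ≤ ℓ)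
    (hm : (n - 1) / 2 ≤ m) (hz0 : 0 ≤ z) (hz : z ≤ 2 * n / ℓ + 1) (ha : a ≤ 16 - ℓ / 8)
    (hb : -b ≤ ℓ / 8) (hL0 : 0 ≤ L) (hL2 : L * L = n * ℓ) (hLr : L * (r * r * r) ≤ n)
    (hr : 31 ≤ r * r * r) (hlp : lp ≤ L / 10 + 10) (hlam : lam ≤ 3 * lp + r * r * r + 1)
    (hℓn : 200 * ℓ ≤ n) :
    lp + 2 * (m * a - z * b + lam * (L / 10)) ≤ -(9/10) * n := by
  have hA' : m * a ≤ (n - 1) / 2 * (16 - ℓ / 8) := by
    have h1 : m * a ≤ m * (16 - ℓ / 8) := mul_le_mul_of_nonneg_left ha (by linarith)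
    have h2 : m * (16 - ℓ / 8) ≤ (n - 1) / 2 * (16 - ℓ / 8) :=
      mul_le_mul_of_nonpos_right hm (by linarith)
    linarith
  have hB' : -(z * b) ≤ n / 4 + ℓ / 8 := by
    have hℓ0 : (0:ℝ) < ℓ := by linarith
    calc -(z * b) = z * (-b) := by ring
      _ ≤ z * (ℓ / 8) := by gcongr
      _ ≤ (2 * n / ℓ + 1) * (ℓ / 8) := by gcongr
      _ = _ := by field_simp; ring
  have hL31 : L * 31 ≤ n := le_trans (mul_le_mul_of_nonneg_left hr hL0) hLr
  have hC : lam * (L / 10) ≤ 3/100 * (n * ℓ) + n / 10 + n / 10 := by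
    calc lam * (L / 10) ≤ (3 * lp + r * r * r + 1) * (L / 10) := by gcongr
      _ ≤ (3 * (L / 10 + 10) + r * r * r + 1) * (L / 10) := by gcongr
      _ = 3/100 * (L * L) + L * (r * r * r) / 10 + 31 * L / 10 := by ring
      _ ≤ _ := by rw [hL2]; linarith
  have hnl : 1000 * n ≤ n * ℓ := by
    have := mul_le_mul_of_nonneg_left hℓ (show (0:ℝ) ≤ n by linarith); linarith
  linarith

/-- The dense event, with all parameters fixed. -/
theorem dense_bound : ∀ᶠ n : ℕ in atTop, ∀ (p : ℕ) [Fact p.Prime],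
    4 / threshT n < (p:ℝ) → (p:ℝ) ≤ 10 / threshT n →
      5 ≤ p ∧ n ≤ p ∧ 3 / (p:ℝ) < threshT n ∧
      prob (DenseEvent p (threshZ n) (threshT n) (n := n)) ≤ (0.46:ℝ) ^ n := by
  filter_upwards [eventually_ge_atTop 100000, ev_log_ge 1000,
    ev_log_le_rpow 1000 (1/8) (by norm_num), ev_log_le_rpow 200 (1:ℝ) (by norm_num)]
    with n hn hl hl8 hl1
  intro p _ hp1 hp2
  rw [Real.rpow_one] at hl1
  have hn' : (100000:ℝ) ≤ n := by exact_mod_cast hn
  have hn0 : (0:ℝ) < n := by linarith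
  set ℓ := Real.log n with hℓ
  have hℓ0 : 0 < ℓ := by linarith
  set L := Real.sqrt (n * ℓ) with hL
  have hL0 : 0 ≤ L := Real.sqrt_nonneg _
  have hL2 : L * L = n * ℓ := Real.mul_self_sqrt (by positivity)
  set T := threshT n with hTdef
  have hT : T = Real.exp (-(L / 10)) := by
    rw [hTdef, threshT, ← Real.exp_nat_mul, hL, hℓ]; congr 1; push_cast; ring
  have hTpos : 0 < T := by rw [hT]; exact Real.exp_pos _
  have hinvT : 1 / T = Real.exp (L / 10) := by rw [hT, one_div, ← Real.exp_neg, neg_neg]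
  have hp0 : (0:ℝ) < p := lt_trans (by positivity) hp1
  have hℓL : 10 * ℓ ≤ L := by
    rw [hL, Real.le_sqrt (by positivity) (by positivity)]
    have := mul_le_mul_of_nonneg_right hl1 hℓ0.le
    have := mul_nonneg hn0.le hℓ0.le
    linarith
  have hnT : (n:ℝ) ≤ 1 / T := by
    rw [hinvT, ← Real.exp_log hn0]
    apply Real.exp_le_exp.2
    rw [← hℓ]
    linarith
  have h4T : 4 * (n:ℝ) ≤ 4 / T := by
    rw [show 4 / T = 4 * (1 / T) by ring]; linarith
  have hnp : n ≤ p := by exact_mod_cast (by linarith : (n:ℝ) ≤ p)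
  have h3p : 3 / (p:ℝ) < T := by
    rw [div_lt_iff₀ hp0]; rw [div_lt_iff₀ hTpos] at hp1; linarith
  refine ⟨by omega, hnp, h3p, ?_⟩
  -- parameters
  set r := (n:ℝ) ^ (1/8:ℝ) with hr
  have hr0 : 0 < r := by positivity
  have hr16 : 16 ≤ r := by linarith
  have hrlog : Real.log r = ℓ / 8 := by rw [hr, Real.log_rpow hn0, ← hℓ]; ring
  have hr8 : r * r * r * r * r * r * r * r = n := by
    rw [hr]; simp only [← Real.rpow_add hn0]; norm_num
  have hrn : r ≤ n := by rw [hr]; exact Real.rpow_le_self_of_one_le (by linarith) (by norm_num)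
  set J := ⌊r⌋₊ with hJ
  have hJ1 : (J:ℝ) ≤ r := Nat.floor_le hr0.le
  have hJ2 : r / 2 ≤ (J:ℝ) := by
    have := Nat.lt_floor_add_one r
    rw [← hJ] at this
    linarith
  have hJpos : (0:ℝ) < J := by linarith
  set ε := 2 / (J:ℝ) with hε
  have hεpos : 0 < ε := by positivity
  have hε1 : ε ≤ 1 := by rw [hε, div_le_one hJpos]; linarith
  set lp := Real.log p with hlp
  have hlp0 : 0 ≤ lp := Real.log_natCast_nonneg p
  have hlp1 : lp ≤ L / 10 + 10 := by
    have h1 : lp ≤ Real.log (10 * (1 / T)) := Real.log_le_log hp0 (by rw [mul_one_div]; exact hp2)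
    rw [hinvT, Real.log_mul (by norm_num) (by positivity), Real.log_exp] at h1
    linarith [Real.log_le_sub_one_of_pos (show (0:ℝ) < 10 by norm_num)]
  set lam := ⌈3 * lp + r * r * r⌉₊ with hlam
  have hlam1 : 3 * lp + r * r * r ≤ (lam:ℝ) := Nat.le_ceil _
  have hlam2 : (lam:ℝ) ≤ 3 * lp + r * r * r + 1 :=
    (Nat.ceil_lt_add_one (by positivity)).le
  have hexpε : Real.exp (-ℓ) ≤ ε := by
    rw [Real.exp_neg, hℓ, Real.exp_log hn0, hε, inv_le_iff_one_le_mul₀ hn0, div_mul_eq_mul_div,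
      one_le_div₀ hJpos]
    linarith
  have h2 := mid_step_param J lam r ℓ ε (by linarith) hJ1 (by linarith) hl8 hl hexpε
  have h3 := exc_step_param lam p r ℓ ε (by exact_mod_cast (show 1 ≤ p by omega)) hr16 hlam1 hl8 hexpε
  refine le_trans (prob_dense_le J lam ε T (by omega) (by exact_mod_cast (by linarith : (1:ℝ) ≤ J))
    hεpos hε1 le_rfl h2 h3 h3p n (threshZ n)) ?_
  rw [dense_total (n / 2) (threshZ n) lam p ε T L hp0 hεpos hT]
  apply exp_le_pow46
  refine dense_arith n _ _ lam r ℓ L lp _ _ hn' hl ?_ (Nat.cast_nonneg _) ?_ ?_ ?_ hL0 hL2 ?_ ?_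
    hlp1 hlam2 hl1
  · have : n ≤ 2 * (n / 2) + 1 := by omega
    have : (n:ℝ) ≤ 2 * ((n / 2 : ℕ) : ℝ) + 1 := by exact_mod_cast this
    linarith
  · exact (Nat.ceil_lt_add_one (by positivity)).le
  · have h : 4 * ε ≤ 16 / r := by
      rw [hε, mul_div_assoc', div_le_div_iff₀ hJpos hr0]; linarith
    refine le_trans (Real.log_le_log (by positivity) h) ?_
    rw [Real.log_div (by norm_num) hr0.ne', hrlog]
    linarith [Real.log_le_sub_one_of_pos (show (0:ℝ) < 16 by norm_num)]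
  · rw [← hrlog, ← Real.log_inv]
    refine Real.log_le_log (by positivity) ?_
    rw [hε, inv_div]; linarith
  · have h2 : L ≤ Real.sqrt n * r := by
      rw [hL, Real.sqrt_mul hn0.le]
      apply mul_le_mul_of_nonneg_left _ (Real.sqrt_nonneg _)
      rw [Real.sqrt_le_left hr0.le, sq]
      calc ℓ ≤ r * 1 := by linarith
        _ ≤ r * r := by gcongr; linarith
    have h3 : Real.sqrt n = r * r * r * r := by
      rw [← Real.sqrt_mul_self (show (0:ℝ) ≤ r * r * r * r by positivity)]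
      congr 1; linear_combination -hr8
    calc L * (r * r * r) ≤ (Real.sqrt n * r) * (r * r * r) := by gcongr
      _ = r * r * r * r * r * r * r * r := by rw [h3]; ring
      _ = n := hr8
  · calc (31:ℝ) ≤ 16 * 16 * 16 := by norm_num
      _ ≤ r * r * r := by gcongr

end Vale.Agent.P160
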