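import Vale.Agent.P160.Walk

/-! Counting vectors with large signed-sum concentration. -/

noncomputable section

open Finset

namespace Vale.Agent.P160

variable {p : ℕ} [Fact p.Prime]

/-- Product of the collision probabilities of all proper suffixes. -/
def collProd : List (ZMod p) → ℝ
  | [] => 1
  | _ :: l => coll l * collProd l

/-- `ε ^ (number of zero entries)`. -/
def zeroWeight (ε : ℝ) : List (ZMod p) → ℝ
  | [] => 1
  | x :: l => (if x = 0 then ε else 1) * zeroWeight ε l

theorem collProd_nonneg (l : List (ZMod p)) : 0 ≤ collProd l := by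
  induction l with
  | nil => simp [collProd]
  | cons x l ih => simp only [collProd]; exact mul_nonneg (coll_nonneg l) ih

theorem zeroWeight_nonneg {ε : ℝ} (hε : 0 ≤ ε) (l : List (ZMod p)) : 0 ≤ zeroWeight ε l := by
  induction l with
  | nil => simp [zeroWeight]
  | cons x l ih => simp only [zeroWeight]; split_ifs <;> positivity

theorem zeroWeight_eq (ε : ℝ) (l : List (ZMod p)) :
    zeroWeight ε l = ε ^ (l.countP (fun x => decide (x = 0))) := by
  induction l with
  | nil => simp [zeroWeight]
  | cons x l ih =>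
      simp only [zeroWeight, ih, List.countP_cons]
      split_ifs with h <;> simp_all [pow_succ, mul_comm]

variable (J lam : ℕ) (ε T : ℝ)

/-- Weight used in the potential argument. -/
def potential (l : List (ZMod p)) : ℝ :=
  if T ≤ coll l then collProd l * zeroWeight ε l * coll l ^ lam else 0

theorem step_sum (hp5 : 5 ≤ p) (hJ : 1 ≤ J) (hε : 0 < ε) (h1 : 2 / (J : ℝ) ≤ ε)
    (h2 : 4 * (1 - 1 / (4 * (J : ℝ) ^ 2)) ^ lam ≤ ε) (h3 : (p : ℝ) * (5 / 8) ^ lam ≤ ε)
    (l : List (ZMod p)) (hM : 3 / (p : ℝ) < coll l) :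
    ∑ x : ZMod p, coll l * (if x = 0 then ε else 1) * coll (x :: l) ^ lam
      ≤ 4 * ε * coll l ^ lam := by
  classical
  have hp0 : (0:ℝ) < p := by
    have : 0 < p := by omega
    exact_mod_cast this
  have hMpos : 0 < coll l := lt_trans (by positivity) hM
  have hM1 := coll_le_one l
  have hJ' : (1:ℝ) ≤ J := by exact_mod_cast hJ
  have h20 : (2 : ZMod p) ≠ 0 := by
    intro h
    have : ((2:ℕ) : ZMod p) = 0 := by simpa using h
    rw [ZMod.natCast_eq_zero_iff] at this
    have := Nat.le_of_dvd (by norm_num) this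
    omega
  set M := coll l with hMdef
  have hterm : ∀ x : ZMod p, M * (if x = 0 then ε else 1) * coll (x :: l) ^ lam
      ≤ M ^ lam * ((if x = 0 then ε else 0)
        + M * (if x ≠ 0 ∧ 2 * (J:ℝ) ^ 2 * defect l (2 * x) ≤ M then 1 else 0)
        + M * (1 - 1 / (4 * (J:ℝ) ^ 2)) ^ lam * (if M / 4 ≤ corr l (2 * x) then 1 else 0)
        + M * (5 / 8) ^ lam) := by
    intro x
    have hmono := coll_cons_le x l
    have hc0 := coll_nonneg (x :: l)
    have hq0 : (0:ℝ) ≤ 1 - 1 / (4 * (J:ℝ) ^ 2) := by
      rw [sub_nonneg, div_le_one (by positivity)]; nlinarith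
    have hn1 : 0 ≤ M * (1 - 1 / (4 * (J:ℝ) ^ 2)) ^ lam * (if M / 4 ≤ corr l (2 * x) then 1 else 0) := by
      positivity
    have hn2 : 0 ≤ M * (5 / 8 : ℝ) ^ lam := by positivity
    have hn0 : 0 ≤ M * (if x ≠ 0 ∧ 2 * (J:ℝ) ^ 2 * defect l (2 * x) ≤ M then (1:ℝ) else 0) := by
      positivity
    by_cases hx : x = 0
    · subst hx
      rw [coll_cons_zero, if_pos rfl, if_pos rfl]
      have : M * ε ≤ ε := mul_le_of_le_one_left hε.le hM1
      have hp : 0 ≤ M ^ lam := by positivity
      calc M * ε * M ^ lam ≤ ε * M ^ lam := by gcongr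
        _ ≤ _ := by
          rw [mul_comm]; gcongr
          exact le_add_of_le_of_nonneg
            (le_add_of_le_of_nonneg (le_add_of_le_of_nonneg le_rfl (by positivity)) (by positivity)) hn2
    rw [if_neg hx, if_neg hx, mul_one, zero_add]
    by_cases hsmall : 2 * (J:ℝ) ^ 2 * defect l (2 * x) ≤ M
    · rw [if_pos ⟨hx, hsmall⟩]
      calc M * coll (x :: l) ^ lam ≤ M * M ^ lam := by gcongr
        _ ≤ _ := by rw [mul_comm]; gcongr; linarith
    push Not at hsmall
    by_cases hmid : M / 4 ≤ corr l (2 * x)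
    · have : coll (x :: l) ≤ M * (1 - 1 / (4 * (J:ℝ) ^ 2)) := by
        rw [coll_cons]
        have : M / (2 * (J:ℝ) ^ 2) ≤ defect l (2 * x) := by
          rw [div_le_iff₀ (by positivity)]; linarith
        have e : M * (1 - 1 / (4 * (J:ℝ) ^ 2)) = M - M / (2 * (J:ℝ) ^ 2) / 2 := by field_simp; ring
        rw [e]; linarith
      rw [if_pos hmid] at hn1 ⊢
      calc M * coll (x :: l) ^ lam ≤ M * (M * (1 - 1 / (4 * (J:ℝ) ^ 2))) ^ lam := by gcongr
        _ = M ^ lam * (M * (1 - 1 / (4 * (J:ℝ) ^ 2)) ^ lam * 1) := by rw [mul_pow]; ring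
        _ ≤ _ := by gcongr; linarith
    · push Not at hmid
      have : coll (x :: l) ≤ M * (5 / 8) := by
        rw [coll_cons]
        have : defect l (2 * x) = M - corr l (2 * x) := rfl
        linarith
      calc M * coll (x :: l) ^ lam ≤ M * (M * (5 / 8)) ^ lam := by gcongr
        _ = M ^ lam * (M * (5 / 8) ^ lam) := by rw [mul_pow]; ring
        _ ≤ _ := by gcongr; linarith
  refine le_trans (Finset.sum_le_sum fun x _ => hterm x) ?_
  rw [← Finset.mul_sum, mul_comm (4 * ε)]
  gcongr
  rw [Finset.sum_add_distrib, Finset.sum_add_distrib, Finset.sum_add_distrib, ← Finset.mul_sum,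
    ← Finset.mul_sum, Finset.sum_boole, Finset.sum_boole]
  have e0 : ∑ x : ZMod p, (if x = 0 then ε else 0) = ε := by simp
  have e1 : M * ((Finset.univ.filter
      (fun x : ZMod p => x ≠ 0 ∧ 2 * (J:ℝ) ^ 2 * defect l (2 * x) ≤ M)).card : ℝ) ≤ ε := by
    set F := Finset.univ.filter (fun x : ZMod p => x ≠ 0 ∧ 2 * (J:ℝ) ^ 2 * defect l (2 * x) ≤ M)
    set H := F.image (fun x => 2 * x)
    have hH : H.card = F.card := Finset.card_image_of_injective _ (fun a b h => mul_left_cancel₀ h20 h)
    have h0 : (0 : ZMod p) ∉ H := by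
      intro h
      obtain ⟨x, hx, hx0⟩ := Finset.mem_image.1 h
      rcases mul_eq_zero.1 hx0 with h | h
      · exact h20 h
      · exact (Finset.mem_filter.1 hx).2.1 h
    have := card_small_defect l hM J H h0 (fun d hd => by
      obtain ⟨x, hx, rfl⟩ := Finset.mem_image.1 hd
      exact (Finset.mem_filter.1 hx).2.2)
    rw [hH, ← hMdef, le_div_iff₀ hMpos] at this
    refine le_trans ?_ h1
    rw [le_div_iff₀ (by positivity)]
    have hc : (0:ℝ) ≤ F.card := by positivity
    nlinarith
  have e2 : M * (1 - 1 / (4 * (J:ℝ) ^ 2)) ^ lam * ((Finset.univ.filter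
      (fun x : ZMod p => M / 4 ≤ corr l (2 * x))).card : ℝ) ≤ ε := by
    set F := Finset.univ.filter (fun x : ZMod p => M / 4 ≤ corr l (2 * x))
    have hF := card_corr_ge l (M / 4) (by positivity) (F.image (fun x => 2 * x)) (fun d hd => by
      obtain ⟨x, hx, rfl⟩ := Finset.mem_image.1 hd
      exact (Finset.mem_filter.1 hx).2)
    rw [Finset.card_image_of_injective _ (fun a b h => mul_left_cancel₀ h20 h)] at hF
    have hq : (0:ℝ) ≤ (1 - 1 / (4 * (J:ℝ) ^ 2)) ^ lam := by
      apply pow_nonneg
      rw [sub_nonneg, div_le_one (by positivity)]; nlinarith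
    calc M * (1 - 1 / (4 * (J:ℝ) ^ 2)) ^ lam * (F.card : ℝ)
        ≤ M * (1 - 1 / (4 * (J:ℝ) ^ 2)) ^ lam * (1 / (M / 4)) := by gcongr
      _ = 4 * (1 - 1 / (4 * (J:ℝ) ^ 2)) ^ lam := by field_simp
      _ ≤ ε := h2
  have e3 : ∑ _x : ZMod p, M * (5 / 8 : ℝ) ^ lam ≤ ε := by
    rw [Finset.sum_const, Finset.card_univ, ZMod.card, nsmul_eq_mul]
    calc (p:ℝ) * (M * (5 / 8) ^ lam) ≤ (p:ℝ) * (1 * (5 / 8) ^ lam) := by gcongr
      _ ≤ ε := by rw [one_mul]; exact h3
  rw [e0]
  linarith

theorem sum_potential (hp5 : 5 ≤ p) (hJ : 1 ≤ J) (hε : 0 < ε) (h1 : 2 / (J : ℝ) ≤ ε)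
    (h2 : 4 * (1 - 1 / (4 * (J : ℝ) ^ 2)) ^ lam ≤ ε) (h3 : (p : ℝ) * (5 / 8) ^ lam ≤ ε)
    (hT : 3 / (p : ℝ) < T) :
    ∀ m : ℕ, ∑ v : Fin m → ZMod p, potential lam ε T (List.ofFn v) ≤ (4 * ε) ^ m := by
  intro m
  induction m with
  | zero =>
      simp only [pow_zero, Fintype.sum_unique, List.ofFn_zero, potential, coll_nil, collProd, zeroWeight]
      split_ifs <;> norm_num
  | succ m ih =>
      rw [← (Fin.consEquiv (fun _ : Fin (m + 1) => ZMod p)).sum_comp, Fintype.sum_prod_type,
        Finset.sum_comm, pow_succ']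
      refine le_trans (Finset.sum_le_sum (g := fun v => 4 * ε * potential lam ε T (List.ofFn v))
        fun v _ => ?_) ?_
      · simp only [Fin.consEquiv_apply, List.ofFn_succ, Fin.cons_zero, Fin.cons_succ]
        set l := List.ofFn v
        by_cases hl : T ≤ coll l
        · have hz := zeroWeight_nonneg hε.le l
          have hc := collProd_nonneg l
          calc ∑ x : ZMod p, potential lam ε T (x :: l)
              ≤ ∑ x : ZMod p, (collProd l * zeroWeight ε l) *
                  (coll l * (if x = 0 then ε else 1) * coll (x :: l) ^ lam) := by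
                apply Finset.sum_le_sum
                intro x _
                simp only [potential, collProd, zeroWeight]
                have h0 := coll_nonneg l
                have h0' := coll_nonneg (x :: l)
                by_cases hx : T ≤ coll (x :: l)
                · rw [if_pos hx]; exact le_of_eq (by ring)
                · rw [if_neg hx]; positivity
            _ = (collProd l * zeroWeight ε l) *
                  ∑ x : ZMod p, coll l * (if x = 0 then ε else 1) * coll (x :: l) ^ lam := by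
                rw [Finset.mul_sum]
            _ ≤ (collProd l * zeroWeight ε l) * (4 * ε * coll l ^ lam) := by
                gcongr
                exact step_sum J lam ε hp5 hJ hε h1 h2 h3 l (lt_of_lt_of_le hT hl)
            _ = _ := by simp only [potential, if_pos hl]; ring
        · have : ∀ x : ZMod p, potential lam ε T (x :: l) = 0 := by
            intro x
            simp only [potential]
            rw [if_neg]
            intro h
            exact hl (le_trans h (coll_cons_le x l))
          rw [Finset.sum_eq_zero fun x _ => this x]; simp [potential, if_neg hl]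
      · rw [← Finset.mul_sum]
        gcongr

theorem sum_collProd_le (hp5 : 5 ≤ p) (hJ : 1 ≤ J) (hε : 0 < ε) (hε1 : ε ≤ 1)
    (h1 : 2 / (J : ℝ) ≤ ε)
    (h2 : 4 * (1 - 1 / (4 * (J : ℝ) ^ 2)) ^ lam ≤ ε) (h3 : (p : ℝ) * (5 / 8) ^ lam ≤ ε)
    (hT : 3 / (p : ℝ) < T) (m z : ℕ) :
    ∑ v : Fin m → ZMod p,
      (if T ≤ coll (List.ofFn v) ∧ (List.ofFn v).countP (fun x => decide (x = 0)) ≤ z
        then collProd (List.ofFn v) else 0)
      ≤ (4 * ε) ^ m / (ε ^ z * T ^ lam) := by
  have hT0 : 0 < T := lt_of_le_of_lt (by positivity) hT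
  rw [le_div_iff₀ (by positivity), Finset.sum_mul]
  refine le_trans (Finset.sum_le_sum fun v _ => ?_) (sum_potential J lam ε T hp5 hJ hε h1 h2 h3 hT m)
  set l := List.ofFn v
  have hz := zeroWeight_nonneg hε.le l
  have hc := collProd_nonneg l
  have hco := coll_nonneg l
  by_cases h : T ≤ coll l ∧ l.countP (fun x => decide (x = 0)) ≤ z
  · rw [if_pos h]
    simp only [potential, if_pos h.1, zeroWeight_eq, mul_assoc]
    refine mul_le_mul_of_nonneg_left (mul_le_mul ?_ ?_ (by positivity) (by positivity)) hc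
    · exact pow_le_pow_of_le_one hε.le hε1 h.2
    · exact pow_le_pow_left₀ hT0.le h.1 _
  · rw [if_neg h, zero_mul]
    simp only [potential]
    split_ifs <;> positivity

end Vale.Agent.P160
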