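import Mathlib

/-! Definitions for the P160 hand-in: random symmetric sign matrices. -/

noncomputable section

namespace Vale.Agent.P160

/-- `true ↦ 1`, `false ↦ -1`. -/
def sgn (b : Bool) : ℤ := if b then 1 else -1

/-- The symmetric sign matrix given by a choice of a sign for every unordered pair `{i,j}`
(diagonal pairs `{i,i}` included). A uniformly random `ω` gives the random matrix `A_n`. -/
def symSignMatrix {n : ℕ} (ω : Sym2 (Fin n) → Bool) : Matrix (Fin n) (Fin n) ℤ :=
  fun i j => sgn (ω s(i, j))

/-- Probability of an event under the uniform distribution on a finite type. -/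
def prob {α : Type} [Fintype α] (P : α → Prop) : ℝ :=
  (Nat.card {x : α // P x} : ℝ) / (Fintype.card α : ℝ)

/-- The singularity probability `q_n`. -/
def singProb (n : ℕ) : ℝ :=
  prob (fun ω : Sym2 (Fin n) → Bool => (symSignMatrix ω).det = 0)

/-- Number of zero coordinates of a vector. -/
def numZeros {n : ℕ} (v : Fin n → ℤ) : ℕ := (Finset.univ.filter (fun i => v i = 0)).card

/-- The probability that the signed sum `±v₁ ± ... ± vₙ` (independent uniform signs) equals `a`. -/
def signSumProb {n : ℕ} (v : Fin n → ℤ) (a : ℤ) : ℝ :=
  prob (fun x : Fin n → Bool => ∑ i, sgn (x i) * v i = a)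

/-- `A` has a nonzero integer kernel vector `v` which has at least `2n / log n` zero coordinates, or
whose signed sums have a point of probability at least `exp (-√(n log n) / 20)`. -/
def StructuredKernel {n : ℕ} (A : Matrix (Fin n) (Fin n) ℤ) : Prop :=
  ∃ v : Fin n → ℤ, v ≠ 0 ∧ A.mulVec v = 0 ∧
    (2 * (n : ℝ) / Real.log n ≤ (numZeros v : ℝ) ∨
      ∃ a : ℤ, Real.exp (-(Real.sqrt (n * Real.log n) / 20)) ≤ signSumProb v a)

/-- The probability that `A_n` has a structured kernel vector. -/
def structProb (n : ℕ) : ℝ :=
  prob (fun ω : Sym2 (Fin n) → Bool => StructuredKernel (symSignMatrix ω))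

/-- The probability that `A_n` is singular and has no structured kernel vector. -/
def unstructProb (n : ℕ) : ℝ :=
  prob (fun ω : Sym2 (Fin n) → Bool =>
    (symSignMatrix ω).det = 0 ∧ ¬ StructuredKernel (symSignMatrix ω))

end Vale.Agent.P160
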