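import Vale.Agent.P160.Exposure

/-! The contribution of kernel vectors with large signed-sum concentration. -/

noncomputable section

open Finset

namespace Vale.Agent.P160

variable {p : ℕ} [Fact p.Prime]

omit [Fact p.Prime] in
theorem countP_split (q : ZMod p → Bool) (l : List (ZMod p)) :
    (split2 l).1.countP q + (split2 l).2.countP q = l.countP q := by
  induction l with
  | nil => simp [split2]
  | cons x l ih => simp only [split2, List.countP_cons]; omega

/-- A kernel vector mod `p` with few zeros and collision probability at least `T`. -/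
def DenseEvent (p : ℕ) [Fact p.Prime] (z : ℕ) (T : ℝ) {n : ℕ} (ω : Sym2 (Fin n) → Bool) : Prop :=
  ∃ v : Fin n → ZMod p, T ≤ coll (List.ofFn v) ∧
    (List.ofFn v).countP (fun x => decide (x = 0)) ≤ z ∧
    ∀ i, ∑ j, sgnF p (ω s(i, j)) * v j = 0

theorem prob_dense_le_sum (n z : ℕ) (T : ℝ) :
    prob (DenseEvent p z T (n := n))
      ≤ ∑ v : Fin n → ZMod p,
          (if T ≤ coll (List.ofFn v) ∧ (List.ofFn v).countP (fun x => decide (x = 0)) ≤ z
            then atomProd (List.ofFn v) else 0) := by
  classical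
  rw [← Finset.sum_filter]
  refine le_trans ?_ (Finset.sum_le_sum fun v _ => prob_mulVec_le n v (fun _ => 0))
  refine le_trans (prob_mono ?_) (prob_exists_le _ _)
  intro ω ⟨v, h1, h2, h3⟩
  exact ⟨v, by simp only [Finset.mem_filter, Finset.mem_univ, true_and]; exact ⟨h1, h2⟩, h3⟩

theorem prob_dense_le (J lam : ℕ) (ε T : ℝ) (hp5 : 5 ≤ p) (hJ : 1 ≤ J) (hε : 0 < ε) (hε1 : ε ≤ 1)
    (h1 : 2 / (J : ℝ) ≤ ε)
    (h2 : 4 * (1 - 1 / (4 * (J : ℝ) ^ 2)) ^ lam ≤ ε) (h3 : (p : ℝ) * (5 / 8) ^ lam ≤ ε)
    (hT : 3 / (p : ℝ) < T) (n z : ℕ) :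
    prob (DenseEvent p z T (n := n))
      ≤ (p : ℝ) * ((4 * ε) ^ (n / 2) / (ε ^ z * T ^ lam)) ^ 2 := by
  classical
  refine le_trans (prob_dense_le_sum n z T) ?_
  set F : List (ZMod p) → ℝ := fun l =>
    if T ≤ coll l ∧ l.countP (fun x => decide (x = 0)) ≤ z then atomProd l else 0 with hF
  set G : List (ZMod p) → ℝ := fun l =>
    if T ≤ coll l ∧ l.countP (fun x => decide (x = 0)) ≤ z then collProd l else 0 with hG
  set B := (4 * ε) ^ (n / 2) / (ε ^ z * T ^ lam) with hB
  have hGnn : ∀ l, 0 ≤ G l := by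
    intro l; simp only [hG]; split_ifs
    · exact collProd_nonneg l
    · exact le_rfl
  have heven : ∀ m : ℕ, m = n / 2 → ∑ v : Fin (2 * m) → ZMod p, F (List.ofFn v) ≤ B ^ 2 := by
    intro m hm
    calc ∑ v : Fin (2 * m) → ZMod p, F (List.ofFn v)
        ≤ ∑ v : Fin (2 * m) → ZMod p, G (split2 (List.ofFn v)).1 * G (split2 (List.ofFn v)).2 := by
          apply Finset.sum_le_sum
          intro v _
          set l := List.ofFn v with hl
          by_cases h : T ≤ coll l ∧ l.countP (fun x => decide (x = 0)) ≤ z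
          · obtain ⟨c1, c2⟩ := coll_le_of_split l
            have hc := countP_split (fun x : ZMod p => decide (x = 0)) l
            simp only [hF, hG]
            rw [if_pos h, if_pos ⟨le_trans h.1 c1, by omega⟩, if_pos ⟨le_trans h.1 c2, by omega⟩]
            exact atomProd_le_collProd m l (by simp [hl])
          · simp only [hF]
            rw [if_neg h]
            exact mul_nonneg (hGnn _) (hGnn _)
      _ = (∑ v : Fin m → ZMod p, G (List.ofFn v)) * ∑ v : Fin m → ZMod p, G (List.ofFn v) :=
          sum_split G G m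
      _ ≤ B * B := by
          have := sum_collProd_le J lam ε T hp5 hJ hε hε1 h1 h2 h3 hT m z
          have hn : 0 ≤ ∑ v : Fin m → ZMod p, G (List.ofFn v) := Finset.sum_nonneg fun _ _ => hGnn _
          have hT0 : 0 < T := lt_of_le_of_lt (by positivity) hT
          simp only [hB, ← hm]
          gcongr
      _ = _ := by ring
  have hp1 : (1:ℝ) ≤ p := by exact_mod_cast (by omega : 1 ≤ p)
  show ∑ v : Fin n → ZMod p, F (List.ofFn v) ≤ (p:ℝ) * B ^ 2
  clear_value B
  rcases Nat.even_or_odd' n with ⟨m, rfl | rfl⟩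
  · calc _ ≤ B ^ 2 := heven m (by omega)
      _ ≤ _ := le_mul_of_one_le_left (by positivity) hp1
  · rw [← (Fin.consEquiv (fun _ : Fin (2 * m + 1) => ZMod p)).sum_comp, Fintype.sum_prod_type]
    calc _ ≤ ∑ _x : ZMod p, ∑ v : Fin (2 * m) → ZMod p, F (List.ofFn v) := by
          apply Finset.sum_le_sum; intro x _
          apply Finset.sum_le_sum; intro v _
          simp only [Fin.consEquiv_apply, List.ofFn_succ, Fin.cons_zero, Fin.cons_succ]
          set l := List.ofFn v
          simp only [hF]
          by_cases h : T ≤ coll (x :: l) ∧ (x :: l).countP (fun x => decide (x = 0)) ≤ z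
          · rw [if_pos h, if_pos ⟨le_trans h.1 (coll_cons_le _ _), by
              have := h.2; rw [List.countP_cons] at this; omega⟩]
            simp only [atomProd]
            exact mul_le_of_le_one_left (atomProd_nonneg l) (atomBound_le_one _)
          · rw [if_neg h]
            split_ifs
            · exact atomProd_nonneg l
            · exact le_rfl
      _ ≤ ∑ _x : ZMod p, B ^ 2 := Finset.sum_le_sum fun _ _ => heven m (by omega)
      _ = _ := by simp

end Vale.Agent.P160
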