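import Vale.Agent.P160.Counting

/-! Row-by-row exposure of a symmetric sign matrix. -/

noncomputable section

open Finset

namespace Vale.Agent.P160

theorem prob_prod_le_mul {α β : Type} [Fintype α] [Fintype β] (P : α × β → Prop) (B : α → Prop)
    (c : ℝ) (h : ∀ a b, P (a, b) → B a) (h' : ∀ a, prob (fun b => P (a, b)) ≤ c) :
    prob P ≤ prob B * c := by
  classical
  rw [prob_prod, prob_eq_sum B, div_mul_eq_mul_div, Finset.sum_mul]
  gcongr with a
  by_cases ha : B a
  · simpa [ha] using h' a
  · rw [prob_congr (Q := fun _ => False) (fun b => ⟨fun hb => ha (h a b hb), False.elim⟩), prob_false]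
    simp [ha]

variable {p : ℕ} [Fact p.Prime]

/-- The number `±1` in `ZMod p`. -/
def sgnF (p : ℕ) (b : Bool) : ZMod p := if b then 1 else -1

theorem cast_sgn (b : Bool) : ((sgn b : ℤ) : ZMod p) = sgnF p b := by
  cases b <;> simp [sgn, sgnF]

theorem law_eq_prob : ∀ (k : ℕ) (v : Fin k → ZMod p) (s : ZMod p),
    prob (fun x : Fin k → Bool => ∑ i, sgnF p (x i) * v i = s) = law (List.ofFn v) s := by
  intro k
  induction k with
  | zero =>
      intro v s
      classical
      rw [prob_eq_sum]
      simp [law, eq_comm]
  | succ k ih =>
      intro v s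
      classical
      rw [List.ofFn_succ]
      simp only [law, ← ih]
      rw [← prob_equiv (Fin.consEquiv (fun _ : Fin (k + 1) => Bool)), prob_prod]
      simp only [Fintype.sum_bool, Fintype.card_bool, Nat.cast_ofNat]
      congr 1
      congr 1
      · apply prob_congr; intro x
        simp only [Fin.consEquiv_apply, Fin.sum_univ_succ, Fin.cons_zero, Fin.cons_succ, sgnF,
          if_true, one_mul]
        constructor <;> intro h <;> linear_combination h
      · apply prob_congr; intro x
        simp only [Fin.consEquiv_apply, Fin.sum_univ_succ, Fin.cons_zero, Fin.cons_succ, sgnF,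
          Bool.false_eq_true, if_false, neg_one_mul]
        constructor <;> intro h <;> linear_combination h

/-- Row bound used in the exposure. -/
def atomBound (l : List (ZMod p)) : ℝ := Real.sqrt (coll (split2 l).1 * coll (split2 l).2)

/-- Product of the row bounds over all suffixes. -/
def atomProd : List (ZMod p) → ℝ
  | [] => 1
  | x :: l => atomBound (x :: l) * atomProd l

theorem atomProd_nonneg (l : List (ZMod p)) : 0 ≤ atomProd l := by
  induction l with
  | nil => simp [atomProd]
  | cons x l ih => simp only [atomProd, atomBound]; positivity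

/-- Splitting off the first row of a symmetric index set. -/
def rowMap (n : ℕ) : Fin (n + 1) ⊕ Sym2 (Fin n) → Sym2 (Fin (n + 1)) :=
  Sum.elim (fun i => s(0, i)) (Sym2.map Fin.succ)

theorem rowMap_bijective (n : ℕ) : Function.Bijective (rowMap n) := by
  constructor
  · rintro (i | a) (j | b) h <;> simp only [rowMap, Sum.elim_inl, Sum.elim_inr] at h
    · exact congrArg Sum.inl (Sym2.congr_right.1 h)
    · exfalso
      have : (0 : Fin (n+1)) ∈ Sym2.map Fin.succ b := by rw [← h]; exact Sym2.mem_mk_left _ _
      obtain ⟨c, -, hc⟩ := Sym2.mem_map.1 this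
      exact Fin.succ_ne_zero c hc
    · exfalso
      have : (0 : Fin (n+1)) ∈ Sym2.map Fin.succ a := by rw [h]; exact Sym2.mem_mk_left _ _
      obtain ⟨c, -, hc⟩ := Sym2.mem_map.1 this
      exact Fin.succ_ne_zero c hc
    · exact congrArg Sum.inr (Sym2.map.injective (Fin.succ_injective _) h)
  · intro z
    induction z using Sym2.ind with
    | h a b =>
      rcases Fin.eq_zero_or_eq_succ a with rfl | ⟨a', rfl⟩
      · exact ⟨Sum.inl b, rfl⟩
      rcases Fin.eq_zero_or_eq_succ b with rfl | ⟨b', rfl⟩
      · exact ⟨Sum.inl a'.succ, Sym2.eq_swap⟩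
      exact ⟨Sum.inr s(a', b'), by simp [rowMap]⟩

theorem prob_mulVec_le : ∀ (n : ℕ) (v b : Fin n → ZMod p),
    prob (fun ω : Sym2 (Fin n) → Bool => ∀ i, ∑ j, sgnF p (ω s(i, j)) * v j = b i)
      ≤ atomProd (List.ofFn v) := by
  intro n
  induction n with
  | zero => intro v b; simpa [atomProd] using prob_le_one _
  | succ n ih =>
      intro v b
      let e : ((Fin (n + 1) → Bool) × (Sym2 (Fin n) → Bool)) ≃ (Sym2 (Fin (n + 1)) → Bool) :=
        (Equiv.sumArrowEquivProdArrow _ _ _).symm.trans
          (Equiv.arrowCongr (Equiv.ofBijective _ (rowMap_bijective n)) (Equiv.refl Bool))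
      have he1 : ∀ r w j, e (r, w) s(0, j) = r j := by
        intro r w j
        have : (Equiv.ofBijective _ (rowMap_bijective n)).symm s(0, j) = Sum.inl j := by
          rw [Equiv.symm_apply_eq]; rfl
        simp [e, Equiv.arrowCongr, this, Equiv.sumArrowEquivProdArrow]
      have he2 : ∀ r w i j, e (r, w) s(Fin.succ i, Fin.succ j) = w s(i, j) := by
        intro r w i j
        have : (Equiv.ofBijective _ (rowMap_bijective n)).symm s(Fin.succ i, Fin.succ j)
            = Sum.inr s(i, j) := by
          rw [Equiv.symm_apply_eq]; rfl
        simp [e, Equiv.arrowCongr, this, Equiv.sumArrowEquivProdArrow]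
      rw [← prob_equiv e, List.ofFn_succ, atomProd]
      refine le_trans (prob_prod_le_mul _ (fun r => ∑ j, sgnF p (r j) * v j = b 0)
        (atomProd (List.ofFn fun i : Fin n => v i.succ)) ?_ ?_) ?_
      · intro r w h
        have := h 0
        simpa only [he1] using this
      · intro r
        refine le_trans (prob_mono fun w h => ?_) (ih (fun i => v i.succ)
          (fun i => b i.succ - sgnF p (r i.succ) * v 0))
        intro i
        have h' := h i.succ
        simp only [Fin.sum_univ_succ, he2] at h'
        rw [Sym2.eq_swap, he1] at h'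
        linear_combination h'
      · refine mul_le_mul_of_nonneg_right ?_ (atomProd_nonneg _)
        rw [law_eq_prob, List.ofFn_succ]
        exact law_le_sqrt _ _

theorem atomBound_le_one (l : List (ZMod p)) : atomBound l ≤ 1 := by
  unfold atomBound
  rw [Real.sqrt_le_one]
  exact mul_le_one₀ (coll_le_one _) (coll_nonneg _) (coll_le_one _)

theorem atomProd_le_collProd : ∀ (k : ℕ) (l : List (ZMod p)), l.length = 2 * k →
    atomProd l ≤ collProd (split2 l).1 * collProd (split2 l).2 := by
  intro k
  induction k with
  | zero =>
      intro l hl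
      obtain rfl : l = [] := List.eq_nil_of_length_eq_zero (by omega)
      simp [atomProd, collProd, split2]
  | succ k ih =>
      intro l hl
      match l, hl with
      | [], hl => simp at hl
      | [_], hl => simp only [List.length_singleton] at hl; omega
      | a :: b :: r, hl =>
        have hr : r.length = 2 * k := by simp at hl; omega
        simp only [atomProd, split2, collProd]
        set A := (split2 r).1
        set B := (split2 r).2
        have nA := coll_nonneg A
        have nB := coll_nonneg B
        have h1 : atomBound (a :: b :: r) ≤ Real.sqrt (coll A * coll B) := by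
          unfold atomBound
          apply Real.sqrt_le_sqrt
          simp only [split2]
          exact mul_le_mul (coll_cons_le _ _) (coll_cons_le _ _) (coll_nonneg _) nA
        have h2 : atomBound (b :: r) ≤ Real.sqrt (coll A * coll B) := by
          unfold atomBound
          apply Real.sqrt_le_sqrt
          simp only [split2]
          rw [mul_comm (coll A)]
          exact mul_le_mul (coll_cons_le _ _) le_rfl nA nB
        have h3 := ih r hr
        have h0 : 0 ≤ atomProd r := atomProd_nonneg r
        calc atomBound (a :: b :: r) * (atomBound (b :: r) * atomProd r)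
            ≤ Real.sqrt (coll A * coll B) *
                (Real.sqrt (coll A * coll B) * (collProd A * collProd B)) := by
              gcongr
              exact mul_nonneg (Real.sqrt_nonneg _) h0
          _ = (coll A * coll B) * (collProd A * collProd B) := by
              rw [← mul_assoc, Real.mul_self_sqrt (mul_nonneg nA nB)]
          _ = _ := by ring

theorem sum_split (g h : List (ZMod p) → ℝ) : ∀ m : ℕ,
    ∑ v : Fin (2 * m) → ZMod p, g (split2 (List.ofFn v)).1 * h (split2 (List.ofFn v)).2
      = (∑ v : Fin m → ZMod p, g (List.ofFn v)) * ∑ v : Fin m → ZMod p, h (List.ofFn v) := by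
  intro m
  induction m generalizing g h with
  | zero => simp [split2]
  | succ m ih =>
      change ∑ v : Fin (2 * m + 1 + 1) → ZMod p, _ = _
      rw [← (Fin.consEquiv (fun _ : Fin (2*m + 1 + 1) => ZMod p)).sum_comp, Fintype.sum_prod_type]
      conv_rhs =>
        rw [← (Fin.consEquiv (fun _ : Fin (m + 1) => ZMod p)).sum_comp, Fintype.sum_prod_type,
          ← (Fin.consEquiv (fun _ : Fin (m + 1) => ZMod p)).sum_comp, Fintype.sum_prod_type]
      simp only [Fin.consEquiv_apply, List.ofFn_succ, Fin.cons_zero, Fin.cons_succ]
      rw [Finset.sum_mul]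
      refine Finset.sum_congr rfl fun a _ => ?_
      rw [← (Fin.consEquiv (fun _ : Fin (2*m + 1) => ZMod p)).sum_comp, Fintype.sum_prod_type,
        Finset.mul_sum]
      refine Finset.sum_congr rfl fun b _ => ?_
      simp only [Fin.consEquiv_apply, List.ofFn_succ, Fin.cons_zero, Fin.cons_succ, split2]
      exact ih (fun l => g (a :: l)) (fun l => h (b :: l))

end Vale.Agent.P160
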