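import Vale.Agent.P160.Defs

/-! Elementary lemmas on uniform probabilities. -/

noncomputable section

open Finset

namespace Vale.Agent.P160

variable {α β : Type} [Fintype α] [Fintype β]

theorem prob_eq_sum (P : α → Prop) [DecidablePred P] :
    prob P = (∑ x : α, if P x then (1:ℝ) else 0) / (Fintype.card α : ℝ) := by
  unfold prob
  rw [Nat.card_eq_fintype_card, Fintype.card_subtype, Finset.sum_boole]

theorem prob_nonneg (P : α → Prop) : 0 ≤ prob P := by
  unfold prob; positivity

theorem prob_le_one (P : α → Prop) : prob P ≤ 1 := by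
  classical
  unfold prob
  apply div_le_one_of_le₀ _ (by positivity)
  rw [Nat.card_eq_fintype_card]
  exact_mod_cast Fintype.card_subtype_le _

theorem prob_mono {P Q : α → Prop} (h : ∀ x, P x → Q x) : prob P ≤ prob Q := by
  classical
  rw [prob_eq_sum, prob_eq_sum]
  gcongr with x
  by_cases hp : P x
  · simp [hp, h x hp]
  · by_cases hq : Q x <;> simp [hp, hq]

theorem prob_congr {P Q : α → Prop} (h : ∀ x, P x ↔ Q x) : prob P = prob Q :=
  le_antisymm (prob_mono fun x => (h x).1) (prob_mono fun x => (h x).2)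

theorem prob_false : prob (fun _ : α => False) = 0 := by
  simp [prob]

theorem prob_or_le (P Q : α → Prop) : prob (fun x => P x ∨ Q x) ≤ prob P + prob Q := by
  classical
  rw [prob_eq_sum, prob_eq_sum, prob_eq_sum, ← add_div, ← Finset.sum_add_distrib]
  gcongr with x
  by_cases hp : P x <;> by_cases hq : Q x <;> simp [hp, hq]

theorem prob_and_not_add (P Q : α → Prop) :
    prob (fun x => P x ∧ ¬ Q x) + prob (fun x => P x ∧ Q x) = prob P := by
  classical
  rw [prob_eq_sum, prob_eq_sum, prob_eq_sum, ← add_div, ← Finset.sum_add_distrib]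
  congr 1
  apply Finset.sum_congr rfl
  intro x _
  by_cases hp : P x <;> by_cases hq : Q x <;> simp [hp, hq]

theorem prob_exists_le {ι : Type*} (s : Finset ι) (P : ι → α → Prop) :
    prob (fun x => ∃ i ∈ s, P i x) ≤ ∑ i ∈ s, prob (P i) := by
  classical
  simp only [prob_eq_sum]
  rw [← Finset.sum_div]
  gcongr
  rw [Finset.sum_comm]
  apply Finset.sum_le_sum
  intro x _
  by_cases h : ∃ i ∈ s, P i x
  · obtain ⟨i, hi, hP⟩ := h
    rw [if_pos ⟨i, hi, hP⟩]
    calc (1:ℝ) = if P i x then 1 else 0 := by rw [if_pos hP]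
      _ ≤ _ := Finset.single_le_sum (f := fun j => if P j x then (1:ℝ) else 0)
          (fun j _ => by positivity) hi
  · rw [if_neg h]
    exact Finset.sum_nonneg fun j _ => by positivity

theorem prob_exists_ge {ι : Type*} [DecidableEq ι] (s : Finset ι) (P : ι → α → Prop) :
    ∑ i ∈ s, prob (P i) - ∑ ij ∈ s.offDiag, prob (fun x => P ij.1 x ∧ P ij.2 x)
      ≤ prob (fun x => ∃ i ∈ s, P i x) := by
  classical
  simp only [prob_eq_sum]
  rw [← Finset.sum_div, ← Finset.sum_div, ← sub_div]
  gcongr
  rw [Finset.sum_comm, Finset.sum_comm (s := s.offDiag), ← Finset.sum_sub_distrib]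
  apply Finset.sum_le_sum
  intro x _
  set T := s.filter (fun i => P i x) with hT
  have h1 : (∑ i ∈ s, if P i x then (1:ℝ) else 0) = (T.card : ℝ) := by
    rw [Finset.sum_boole]
  have h2 : (∑ ij ∈ s.offDiag, if P ij.1 x ∧ P ij.2 x then (1:ℝ) else 0)
      = (T.offDiag.card : ℝ) := by
    rw [Finset.sum_boole]
    norm_cast
    congr 1
    ext ⟨i, j⟩
    simp [hT, Finset.mem_offDiag]
    tauto
  rw [h1, h2, Finset.offDiag_card]
  by_cases h : ∃ i ∈ s, P i x
  · rw [if_pos h]
    have : 1 ≤ T.card := by
      obtain ⟨i, hi, hP⟩ := h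
      exact Finset.card_pos.2 ⟨i, by simp [hT, hi, hP]⟩
    obtain ⟨k, hk⟩ : ∃ k, T.card = k + 1 := ⟨T.card - 1, by omega⟩
    rw [hk]
    have : (k+1) * (k+1) - (k+1) = k * (k+1) := by
      simp [Nat.add_mul, Nat.mul_add]
    rw [this]
    push_cast
    have hk0 : (0:ℝ) ≤ k := by positivity
    nlinarith
  · rw [if_neg h]
    have : T.card = 0 := by
      rw [Finset.card_eq_zero, hT, Finset.filter_eq_empty_iff]
      intro i hi hP; exact h ⟨i, hi, hP⟩
    simp [this]

theorem prob_equiv (e : α ≃ β) (P : β → Prop) : prob (fun x => P (e x)) = prob P := by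
  classical
  rw [prob_eq_sum, prob_eq_sum, Fintype.card_congr e]
  congr 1
  exact Equiv.sum_comp e (fun y => if P y then (1:ℝ) else 0)

/-- Fubini for uniform probabilities. -/
theorem prob_prod (P : α × β → Prop) :
    prob P = (∑ a : α, prob (fun b => P (a, b))) / (Fintype.card α : ℝ) := by
  classical
  simp only [prob_eq_sum]
  rw [← Finset.sum_div, Fintype.card_prod, Fintype.sum_prod_type]
  push_cast
  rw [div_div]
  ring

theorem prob_prod_le (P : α × β → Prop) (c : ℝ) (hc : 0 ≤ c)
    (h : ∀ a, prob (fun b => P (a, b)) ≤ c) : prob P ≤ c := by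
  rw [prob_prod]
  rcases Nat.eq_zero_or_pos (Fintype.card α) with h0 | h0
  · simp [h0, hc]
  · rw [div_le_iff₀ (by exact_mod_cast h0)]
    calc ∑ a : α, prob (fun b => P (a, b)) ≤ ∑ _a : α, c := Finset.sum_le_sum fun a _ => h a
      _ = _ := by simp [mul_comm]

theorem prob_prod_le' (P : α × β → Prop) (B : α → Prop) (c : ℝ) (hc : 0 ≤ c)
    (h : ∀ a, ¬ B a → prob (fun b => P (a, b)) ≤ c) : prob P ≤ prob B + c := by
  classical
  rw [prob_prod, prob_eq_sum B]
  rcases Nat.eq_zero_or_pos (Fintype.card α) with h0 | h0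
  · simp [h0, hc]
  · rw [div_add' _ _ _ (by positivity)]
    gcongr
    calc ∑ a : α, prob (fun b => P (a, b)) ≤ ∑ a : α, ((if B a then (1:ℝ) else 0) + c) := by
          apply Finset.sum_le_sum
          intro a _
          by_cases ha : B a
          · have := prob_le_one (fun b => P (a, b)); simp [ha]; linarith
          · simpa [ha] using h a ha
      _ = _ := by rw [Finset.sum_add_distrib]; simp [mul_comm]

theorem prob_prod_and (P : α → Prop) (Q : β → Prop) :
    prob (fun x : α × β => P x.1 ∧ Q x.2) = prob P * prob Q := by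
  classical
  simp only [prob_eq_sum]
  rw [div_mul_div_comm, Fintype.card_prod, Finset.sum_mul_sum, Fintype.sum_prod_type]
  push_cast
  congr 1
  apply Finset.sum_congr rfl; intro a _
  apply Finset.sum_congr rfl; intro b _
  by_cases ha : P a <;> by_cases hb : Q b <;> simp [ha, hb]

theorem prob_fst [Nonempty β] (P : α → Prop) : prob (fun x : α × β => P x.1) = prob P := by
  have h := prob_prod_and P (fun _ : β => True)
  have : prob (fun _ : β => True) = 1 := by
    classical
    rw [prob_eq_sum]
    simp [Fintype.card_ne_zero]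
  rw [this, mul_one] at h
  rw [← h]
  exact prob_congr fun x => by simp

theorem prob_pi {ι : Type} [Fintype ι] [DecidableEq ι] (P : ι → α → Prop) :
    prob (fun x : ι → α => ∀ i, P i (x i)) = ∏ i, prob (P i) := by
  classical
  unfold prob
  rw [Finset.prod_div_distrib]
  congr 1
  · rw [Nat.card_congr (Equiv.subtypePiEquivPi (p := fun i (a : α) => P i a)), Nat.card_pi]
    push_cast
    rfl
  · rw [Fintype.card_fun]
    simp

/-- Marginal of uniform random Boolean functions along an injection. -/
theorem prob_comp_inj {γ δ : Type} [Fintype γ] [Fintype δ] [DecidableEq γ] [DecidableEq δ]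
    (f : γ → δ) (hf : Function.Injective f) (P : (γ → Bool) → Prop) :
    prob (fun ω : δ → Bool => P (ω ∘ f)) = prob P := by
  classical
  let e1 : γ ⊕ {d // d ∉ Set.range f} ≃ δ :=
    (Equiv.sumCongr (Equiv.ofInjective f hf) (Equiv.refl _)).trans
      (Equiv.sumCompl (fun d => d ∈ Set.range f))
  let e : (δ → Bool) ≃ (γ → Bool) × ({d // d ∉ Set.range f} → Bool) :=
    (Equiv.arrowCongr e1.symm (Equiv.refl Bool)).trans (Equiv.sumArrowEquivProdArrow _ _ _)
  rw [← prob_fst (β := {d // d ∉ Set.range f} → Bool) P, ← prob_equiv e]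
  apply prob_congr
  intro ω
  have : (e ω).1 = ω ∘ f := by
    funext c
    simp [e, e1, Equiv.arrowCongr, Equiv.sumArrowEquivProdArrow]
  rw [this]

end Vale.Agent.P160
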