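import Vale.Agent.P160.Asymptotics

/-! The asymptotics of the structured part of the singularity probability. -/

noncomputable section

open Finset Filter
open scoped Topology

namespace Vale.Agent.P160

variable {p : ℕ} [Fact p.Prime]

theorem sparse_sum_le (hp5 : 5 ≤ p) {n : ℕ} (hnp : n ≤ p) (hn : 256 ≤ n)
    (hbig : ∀ k, k ≤ n - threshZ n →
      ⌈4 * Real.sqrt n⌉₊ + k ≤ n ∧
      (n.choose k : ℝ) * ((k.choose ⌈4 * Real.sqrt n⌉₊ : ℝ) / 2 ^ ((⌈4 * Real.sqrt n⌉₊ + 1).choose 2)
        + ((n - k).choose ⌈4 * Real.sqrt n⌉₊ : ℝ)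
            * (68 / Real.sqrt n) ^ (n - k - ⌈4 * Real.sqrt n⌉₊)) ≤ 2 * (0.46:ℝ) ^ n) :
    prob (fun ω : Sym2 (Fin n) → Bool => ∃ k ∈ Finset.Icc 3 (n - threshZ n),
        ∃ S ∈ (Finset.univ : Finset (Fin n)).powersetCard k, SuppEvent p S ω)
      ≤ (n : ℝ) * (2 * (0.46:ℝ) ^ n) := by
  classical
  refine le_trans (prob_exists_le _ _) ?_
  refine le_trans (Finset.sum_le_sum (g := fun _ => 2 * (0.46:ℝ) ^ n) fun k hk => ?_) ?_
  · obtain ⟨hk3, hkz⟩ := Finset.mem_Icc.1 hk
    obtain ⟨hdk, hb⟩ := hbig k hkz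
    refine le_trans (prob_exists_le _ _) ?_
    by_cases hsmall : 64 * k ≤ n
    · refine le_trans (Finset.sum_le_sum
        (g := fun _ => ((n - k).choose k : ℝ) * (3/8:ℝ) ^ (n - k - k)) fun S hS => ?_) ?_
      · have hSc : S.card = k := (Finset.mem_powersetCard.1 hS).2
        refine le_trans (prob_supp_le hp5 S k (by omega) (3/8) (by norm_num) ?_) ?_
        · intro v hv
          refine prob_dot_le v _ (fun s => law_nonzero_le hp5 _ ?_ ?_ s)
          · intro x hx
            obtain ⟨i, rfl⟩ := List.mem_ofFn.1 hx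
            exact hv _
          · rw [List.length_ofFn, Fintype.card_coe]; omega
        · rw [hSc, if_neg (lt_irrefl k), zero_add]
      · rw [Finset.sum_const, Finset.card_powersetCard, Finset.card_fin, nsmul_eq_mul]
        refine le_trans (small_supp_bound n k hsmall) ?_
        have : (0:ℝ) ≤ (0.46:ℝ) ^ n := by positivity
        linarith
    · set d := ⌈4 * Real.sqrt n⌉₊ with hd
      refine le_trans (Finset.sum_le_sum
        (g := fun _ => (k.choose d : ℝ) / 2 ^ ((d + 1).choose 2)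
          + ((n - k).choose d : ℝ) * (68 / Real.sqrt n) ^ (n - k - d)) fun S hS => ?_) ?_
      · have hSc : S.card = k := (Finset.mem_powersetCard.1 hS).2
        have hn0 : (0:ℝ) < n := by exact_mod_cast (show 0 < n by omega)
        refine le_trans (prob_supp_le hp5 S d (by omega) (68 / Real.sqrt n) (by positivity) ?_) ?_
        · intro v hv
          refine prob_dot_le v _ (fun s => ?_)
          set l := List.ofFn fun i => v ((Fintype.equivFin {i // i ∈ S}).symm i) with hl
          have hlen : l.length = k := by rw [hl, List.length_ofFn, Fintype.card_coe, hSc]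
          have h := law_dense_le hp5 l (fun x hx => by
            obtain ⟨i, rfl⟩ := List.mem_ofFn.1 hx
            exact hv _) (by omega) (by omega) s
          rw [hlen] at h
          have hh : (n:ℝ) ≤ 256 * ((k / 2 : ℕ) : ℝ) := by
            exact_mod_cast (show n ≤ 256 * (k / 2) by omega)
          have h' : (law l s) ^ 2 * n ≤ 68 ^ 2 := by
            have := mul_le_mul_of_nonneg_left hh (sq_nonneg (law l s))
            linarith
          rw [le_div_iff₀ (Real.sqrt_pos.2 hn0)]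
          refine abs_le_of_sq_le_sq' (b := 68) ?_ (by norm_num) |>.2
          rw [mul_pow, Real.sq_sqrt hn0.le]
          exact h'
        · rw [hSc]
          gcongr
          split_ifs
          · exact le_rfl
          · positivity
      · rw [Finset.sum_const, Finset.card_powersetCard, Finset.card_fin, nsmul_eq_mul]
        exact hb
  · rw [Finset.sum_const, nsmul_eq_mul]
    gcongr
    simp; omega

theorem structProb_upper : ∀ᶠ n : ℕ in atTop,
    structProb n ≤ (n : ℝ) * ((n : ℝ) - 1) * (1/2:ℝ) ^ n + 3 * (n : ℝ) * (0.46:ℝ) ^ n := by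
  filter_upwards [dense_bound, large_supp_bound] with n hdense hlarge
  have h256 : 256 ≤ n := (hlarge 0 (Nat.zero_le _)).2.1
  have hTpos : 0 < threshT n := by unfold threshT; positivity
  have hT1 : threshT n ≤ 1 := by
    unfold threshT
    apply pow_le_one₀ (Real.exp_nonneg _)
    rw [Real.exp_le_one_iff]
    have := Real.sqrt_nonneg ((n:ℝ) * Real.log n)
    linarith
  set N := ⌈4 / threshT n⌉₊ with hN
  have h4 : 4 / threshT n ≤ N := Nat.le_ceil _
  have h4' : (N:ℝ) < 4 / threshT n + 1 := Nat.ceil_lt_add_one (by positivity)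
  have hN0 : N ≠ 0 := by
    rw [hN, ne_eq, Nat.ceil_eq_zero, not_le]; positivity
  obtain ⟨p, hp, hNp, hp2⟩ := Nat.exists_prime_lt_and_le_two_mul N hN0
  have : Fact p.Prime := ⟨hp⟩
  have hpl : 4 / threshT n < (p:ℝ) := lt_of_le_of_lt h4 (by exact_mod_cast hNp)
  have hpu : (p:ℝ) ≤ 10 / threshT n := by
    have h1 : (p:ℝ) ≤ 2 * N := by exact_mod_cast hp2
    have h2 : (1:ℝ) ≤ 1 / threshT n := by rw [le_div_iff₀ hTpos]; linarith
    have e4 : 4 / threshT n = 4 * (1 / threshT n) := by ring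
    have e10 : 10 / threshT n = 10 * (1 / threshT n) := by ring
    linarith
  obtain ⟨hp5, hnp, -, hD⟩ := hdense p hpl hpu
  unfold structProb
  refine le_trans (prob_mono (fun ω h => structured_reduction (p := p) (zc := threshZ n)
    (threshT n) hp5 rfl le_rfl ω h)) ?_
  refine le_trans (prob_or_le _ _) ?_
  have h1 : prob (fun ω : Sym2 (Fin n) → Bool => ∃ q ∈ pairSet n, PairEvent q ω)
      ≤ (n : ℝ) * ((n : ℝ) - 1) * (1/2:ℝ) ^ n := by
    refine le_trans (prob_exists_le _ _) (le_of_eq ?_)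
    rw [Finset.sum_congr rfl (g := fun _ => (1/2:ℝ) ^ n) ?_, Finset.sum_const, nsmul_eq_mul,
      card_pairSet]
    intro q hq
    obtain ⟨⟨i, j⟩, b⟩ := q
    simp only [pairSet, Finset.mem_product, Finset.mem_filter, Finset.mem_univ, true_and, and_true] at hq
    rw [prob_pairEvent hq.ne, one_div_pow]
  have h2 := sparse_sum_le (p := p) hp5 hnp h256
    (fun k hk => ⟨(hlarge k hk).2.2.1, (hlarge k hk).2.2.2⟩)
  refine le_trans (add_le_add h1 (le_trans (prob_or_le _ _) (add_le_add h2 hD))) ?_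
  have : (0:ℝ) ≤ (0.46:ℝ) ^ n := by positivity
  have hn1 : (1:ℝ) ≤ n := by exact_mod_cast (show 1 ≤ n by omega)
  have : (0.46:ℝ) ^ n ≤ (n:ℝ) * (0.46:ℝ) ^ n := le_mul_of_one_le_left (by positivity) hn1
  linarith

theorem structProb_lower : ∀ᶠ n : ℕ in atTop,
    (n : ℝ) * ((n : ℝ) - 1) * (1/2:ℝ) ^ n - 256 * (n : ℝ) ^ 4 * (1/4:ℝ) ^ n ≤ structProb n := by
  filter_upwards [eventually_ge_atTop 8, ev_log_ge 8] with n hn hl
  classical
  have hz : 2 * (n : ℝ) / Real.log n ≤ (n : ℝ) - 2 := by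
    have h8 : (8:ℝ) ≤ n := by exact_mod_cast hn
    rw [div_le_iff₀ (by linarith)]
    have := mul_le_mul_of_nonneg_left hl (show (0:ℝ) ≤ (n:ℝ) - 2 by linarith)
    linarith
  unfold structProb
  refine le_trans ?_ (prob_mono (P := fun ω => ∃ q ∈ pairSet n, PairEvent q ω)
    (fun ω ⟨q, hq, hω⟩ => structured_of_pair hz hq ω hω))
  refine le_trans ?_ (prob_exists_ge _ _)
  apply sub_le_sub
  · rw [Finset.sum_congr rfl (g := fun _ => (1/2:ℝ) ^ n) ?_, Finset.sum_const, nsmul_eq_mul,
      card_pairSet]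
    intro q hq
    obtain ⟨⟨i, j⟩, b⟩ := q
    simp only [pairSet, Finset.mem_product, Finset.mem_filter, Finset.mem_univ, true_and, and_true] at hq
    rw [prob_pairEvent hq.ne, one_div_pow]
  · refine le_trans (Finset.sum_le_sum (g := fun _ => 256 / (4:ℝ) ^ n) fun qq hqq => ?_) ?_
    · obtain ⟨h1, h2, h3⟩ := Finset.mem_offDiag.1 hqq
      exact prob_pair_and h1 h2 h3
    · rw [Finset.sum_const, nsmul_eq_mul, Finset.offDiag_card]
      have hc : (((pairSet n).card * (pairSet n).card - (pairSet n).card : ℕ) : ℝ)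
          ≤ (n:ℝ) ^ 4 := by
        refine le_trans (Nat.cast_le.2 (Nat.sub_le _ _)) ?_
        push_cast
        rw [card_pairSet]
        have h0 : (1:ℝ) ≤ n := by exact_mod_cast (show 1 ≤ n by omega)
        calc (n:ℝ) * ((n:ℝ) - 1) * ((n:ℝ) * ((n:ℝ) - 1)) ≤ (n:ℝ) * n * ((n:ℝ) * n) := by
              have h1 : (n:ℝ) * ((n:ℝ) - 1) ≤ (n:ℝ) * n := by gcongr; linarith
              exact mul_le_mul h1 h1 (mul_nonneg (by positivity) (by linarith)) (by positivity)
          _ = _ := by ring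
      refine le_trans (mul_le_mul_of_nonneg_right hc (by positivity)) (le_of_eq ?_)
      rw [one_div_pow]; ring

theorem structProb_asymptotic :
    Tendsto (fun n : ℕ => structProb n / ((n : ℝ) ^ 2 * (1/2:ℝ) ^ n)) atTop (𝓝 1) := by
  have hinv : Tendsto (fun n : ℕ => (1:ℝ) - 1 / (n:ℝ)) atTop (𝓝 1) := by
    simpa using tendsto_const_nhds.sub (tendsto_one_div_atTop_nhds_zero_nat (𝕜 := ℝ))
  have ha : Tendsto (fun n : ℕ => 3 * (0.92:ℝ) ^ n) atTop (𝓝 0) := by
    simpa using (tendsto_pow_atTop_nhds_zero_of_lt_one (by norm_num) (by norm_num : (0.92:ℝ) < 1)).const_mul 3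
  have hb : Tendsto (fun n : ℕ => 256 * ((n:ℝ) ^ 2 * (1/2:ℝ) ^ n)) atTop (𝓝 0) := by
    simpa using (tendsto_pow_const_mul_const_pow_of_abs_lt_one 2
      (show |(1/2:ℝ)| < 1 by norm_num)).const_mul 256
  refine tendsto_of_tendsto_of_tendsto_of_le_of_le'
    (g := fun n : ℕ => (1:ℝ) - 1 / (n:ℝ) - 256 * ((n:ℝ) ^ 2 * (1/2:ℝ) ^ n))
    (h := fun n : ℕ => (1:ℝ) - 1 / (n:ℝ) + 3 * (0.92:ℝ) ^ n) (by simpa using hinv.sub hb)
    (by simpa using hinv.add ha) ?_ ?_
  · filter_upwards [structProb_lower, eventually_ge_atTop 1] with n h hn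
    have hn0 : (1:ℝ) ≤ n := by exact_mod_cast hn
    have hn1 : (n:ℝ) ≠ 0 := by linarith
    rw [le_div_iff₀ (by positivity)]
    refine le_trans (le_of_eq ?_) h
    have e : (1/4:ℝ) ^ n = (1/2:ℝ) ^ n * (1/2:ℝ) ^ n := by rw [← mul_pow]; norm_num
    rw [e]
    field_simp
  · filter_upwards [structProb_upper, eventually_ge_atTop 1] with n h hn
    have hn0 : (1:ℝ) ≤ n := by exact_mod_cast hn
    rw [div_le_iff₀ (by positivity)]
    refine le_trans h ?_
    have e : (0.46:ℝ) ^ n = (0.92:ℝ) ^ n * (1/2:ℝ) ^ n := by rw [← mul_pow]; norm_num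
    have e2 : (1 - 1 / (n:ℝ)) * (n:ℝ) ^ 2 = (n:ℝ) * ((n:ℝ) - 1) := by field_simp
    have h3 : (n:ℝ) ≤ (n:ℝ) ^ 2 := le_self_pow₀ hn0 (by norm_num)
    rw [e, add_mul, ← mul_assoc (1 - 1 / (n:ℝ)), e2]
    have : 3 * (n:ℝ) * ((0.92:ℝ) ^ n * (1/2:ℝ) ^ n)
        ≤ 3 * (n:ℝ) ^ 2 * ((0.92:ℝ) ^ n * (1/2:ℝ) ^ n) := by gcongr
    linarith

theorem structProb_le_singProb (n : ℕ) : structProb n ≤ singProb n :=
  prob_mono fun ω h => structured_singular ω h

theorem singProb_eq (n : ℕ) : singProb n = unstructProb n + structProb n := by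
  unfold singProb unstructProb structProb
  rw [← prob_and_not_add (fun ω : Sym2 (Fin n) → Bool => (symSignMatrix ω).det = 0)
    (fun ω => StructuredKernel (symSignMatrix ω))]
  congr 1
  exact prob_congr fun ω => ⟨fun h => h.2, fun h => ⟨structured_singular ω h, h⟩⟩

theorem rate_iff : Tendsto (fun n : ℕ => singProb n ^ (1 / (n : ℝ))) atTop (𝓝 (1/2)) ↔
    ∀ ε > (0:ℝ), ∀ᶠ n : ℕ in atTop, unstructProb n ≤ (1/2 + ε) ^ n := by
  constructor
  · intro h ε hε
    filter_upwards [h.eventually_le_const (show (1/2:ℝ) < 1/2 + ε by linarith),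
      eventually_ge_atTop 1] with n hn h1
    have h0 : 0 ≤ singProb n := prob_nonneg _
    have e := singProb_eq n
    have hs : 0 ≤ structProb n := prob_nonneg _
    calc unstructProb n ≤ singProb n := by linarith
      _ = (singProb n ^ (1 / (n:ℝ))) ^ n := by
          rw [one_div, Real.rpow_inv_natCast_pow h0 (by omega)]
      _ ≤ _ := by gcongr
  · intro h
    rw [tendsto_order]
    have hlow : ∀ᶠ n : ℕ in atTop, (1/2:ℝ) ^ n ≤ singProb n := by
      filter_upwards [structProb_asymptotic.eventually_const_le (show (1/2:ℝ) < 1 by norm_num),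
        eventually_ge_atTop 2] with n hn h2
      rw [le_div_iff₀ (by positivity)] at hn
      refine le_trans ?_ (le_trans hn (structProb_le_singProb n))
      have h2' : (2:ℝ) ≤ n := by exact_mod_cast h2
      have h4 : (4:ℝ) ≤ (n:ℝ) ^ 2 := by nlinarith
      have := mul_le_mul_of_nonneg_right h4 (show (0:ℝ) ≤ (1/2:ℝ) ^ n by positivity)
      have : (0:ℝ) ≤ (1/2:ℝ) ^ n := by positivity
      linarith
    constructor
    · intro a ha
      filter_upwards [hlow, eventually_ge_atTop 1] with n hn h1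
      refine lt_of_lt_of_le ha ?_
      calc (1/2:ℝ) = ((1/2:ℝ) ^ n) ^ (1 / (n:ℝ)) := by
            rw [one_div (n:ℝ), Real.pow_rpow_inv_natCast (by norm_num) (by omega)]
        _ ≤ _ := Real.rpow_le_rpow (by positivity) hn (by positivity)
    · intro b hb
      set c := (1/2 + b) / 2 with hc
      set ε := (c - 1/2) / 2 with hε
      have hεpos : 0 < ε := by rw [hε, hc]; linarith
      have hcpos : 0 < c := by rw [hc]; linarith
      have hr1 : (1/2:ℝ) / c < 1 := by rw [div_lt_one hcpos, hc]; linarith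
      have hr2 : (1/2 + ε) / c < 1 := by rw [div_lt_one hcpos, hε, hc]; linarith
      have t1 : Tendsto (fun n : ℕ => 2 * ((n:ℝ) ^ 2 * ((1/2:ℝ) / c) ^ n) + ((1/2 + ε) / c) ^ n)
          atTop (𝓝 0) := by
        simpa using ((tendsto_pow_const_mul_const_pow_of_abs_lt_one 2
          (show |(1/2:ℝ) / c| < 1 by rwa [abs_of_nonneg (by positivity)])).const_mul 2).add
          (tendsto_pow_atTop_nhds_zero_of_lt_one (by positivity) hr2)
      filter_upwards [h ε hεpos, eventually_ge_atTop 1, t1.eventually_le_const zero_lt_one,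
        structProb_asymptotic.eventually_le_const (show (1:ℝ) < 2 by norm_num)] with n hU h1 ht hS
      have hn1 : (1:ℝ) ≤ n := by exact_mod_cast h1
      rw [div_le_iff₀ (by positivity)] at hS
      have hq : singProb n ≤ c ^ n := by
        rw [singProb_eq]
        have hc' : (0:ℝ) < c ^ n := by positivity
        rw [div_pow (1/2:ℝ) c, div_pow (1/2 + ε) c, ← mul_div_assoc, ← mul_div_assoc, ← add_div,
          div_le_one hc'] at ht
        linarith
      have hbc : c < b := by rw [hc]; linarith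
      refine lt_of_le_of_lt ?_ hbc
      calc singProb n ^ (1 / (n:ℝ)) ≤ (c ^ n) ^ (1 / (n:ℝ)) :=
            Real.rpow_le_rpow (prob_nonneg _) hq (by positivity)
        _ = c := by rw [one_div, Real.pow_rpow_inv_natCast hcpos.le (by omega)]

end Vale.Agent.P160
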