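import Vale.Agent.P160.Prob

/-! Pairs of equal or opposite columns. -/

noncomputable section

open Finset

namespace Vale.Agent.P160

variable {n : ℕ}

/-- Column `i` equals column `j`, or its negative (`b = true`). -/
def PairEvent (q : (Fin n × Fin n) × Bool) (ω : Sym2 (Fin n) → Bool) : Prop :=
  ∀ k, ω s(k, q.1.1) = xor q.2 (ω s(k, q.1.2))

/-- All unordered pairs with a sign. -/
def pairSet (n : ℕ) : Finset ((Fin n × Fin n) × Bool) :=
  (Finset.univ.filter (fun ij : Fin n × Fin n => ij.1 < ij.2)) ×ˢ Finset.univ

theorem card_pairSet (n : ℕ) : ((pairSet n).card : ℝ) = n * ((n : ℝ) - 1) := by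
  have h : (Finset.univ.filter (fun ij : Fin n × Fin n => ij.1 < ij.2)).card * 2 + n = n * n := by
    have hswap : (Finset.univ.filter (fun ij : Fin n × Fin n => ij.2 < ij.1)).card
        = (Finset.univ.filter (fun ij : Fin n × Fin n => ij.1 < ij.2)).card := by
      apply Finset.card_equiv (Equiv.prodComm _ _)
      simp
    have hdiag : (Finset.univ.filter (fun ij : Fin n × Fin n => ij.1 = ij.2)).card = n := by
      refine Eq.trans (Finset.card_bij (t := (Finset.univ : Finset (Fin n))) (fun ij _ => ij.1) ?_ ?_ ?_)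
        (Finset.card_fin n)
      · simp
      · intro a ha b hb h
        simp only [Finset.mem_filter] at ha hb
        exact Prod.ext h (by rw [← ha.2, ← hb.2]; exact h)
      · intro i _; exact ⟨(i, i), by simp, rfl⟩
    have htot : (Finset.univ.filter (fun ij : Fin n × Fin n => ij.1 < ij.2)).card
        + (Finset.univ.filter (fun ij : Fin n × Fin n => ij.2 < ij.1)).card
        + (Finset.univ.filter (fun ij : Fin n × Fin n => ij.1 = ij.2)).card = n * n := by
      rw [← Finset.card_union_of_disjoint, ← Finset.card_union_of_disjoint]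
      · rw [show n * n = (Finset.univ : Finset (Fin n × Fin n)).card by simp]
        congr 1
        ext ⟨a, b⟩
        simp only [Finset.mem_union, Finset.mem_filter, Finset.mem_univ, true_and, iff_true]
        rcases lt_trichotomy a b with h | h | h
        · exact Or.inl (Or.inl h)
        · exact Or.inr h
        · exact Or.inl (Or.inr h)
      · rw [Finset.disjoint_left]
        rintro ⟨a, b⟩ h1 h2
        simp only [Finset.mem_union, Finset.mem_filter, Finset.mem_univ, true_and] at h1 h2
        subst h2
        simp at h1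
      · rw [Finset.disjoint_left]
        rintro ⟨a, b⟩ h1 h2
        simp only [Finset.mem_filter, Finset.mem_univ, true_and] at h1 h2
        exact absurd h2 (lt_asymm h1)
    omega
  have h' : ((Finset.univ.filter (fun ij : Fin n × Fin n => ij.1 < ij.2)).card : ℝ) * 2 + n = n * n := by
    exact_mod_cast h
  simp only [pairSet, Finset.card_product, Finset.card_univ, Fintype.card_bool]
  push_cast
  linarith

/-- A prescribed pair of columns is equal with probability exactly `2 ^ (-n)`. -/
theorem prob_pairEvent {i j : Fin n} (hij : i ≠ j) (b : Bool) :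
    prob (PairEvent ((i, j), b)) = 1 / 2 ^ n := by
  classical
  let colj : Sym2 (Fin n) → Prop := fun z => j ∈ z
  let e := Equiv.piEquivPiSubtypeProd (fun z => ¬ colj z) (fun _ : Sym2 (Fin n) => Bool)
  rw [← prob_equiv e.symm, prob_prod]
  have hnot : ∀ k, k ≠ j → ¬ colj s(k, i) := by
    intro k hk h
    rcases Sym2.mem_iff.1 h with h | h
    · exact hk h.symm
    · exact hij h.symm
  have hii : ¬ colj s(i, i) := hnot i hij
  have hone : ∀ out : {z // ¬ colj z} → Bool,
      prob (fun c => PairEvent ((i, j), b) (e.symm (out, c))) = 1 / 2 ^ n := by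
    intro out
    -- the unique completion
    let F : Fin n → Bool := fun k =>
      if hk : k = j then out ⟨s(i, i), hii⟩ else xor b (out ⟨s(k, i), hnot k hk⟩)
    have hmem : ∀ k : Fin n, ¬¬ colj s(k, j) := fun k => not_not.2 (Sym2.mem_mk_right k j)
    have hbij : Function.Bijective (fun k : Fin n => (⟨s(k, j), hmem k⟩ : {z // ¬¬ colj z})) := by
      constructor
      · intro k l h
        exact Sym2.congr_left.1 (Subtype.ext_iff.1 h)
      · rintro ⟨z, hz⟩
        obtain ⟨k, rfl⟩ := Sym2.mem_iff_exists.1 (not_not.1 hz)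
        exact ⟨k, Subtype.ext Sym2.eq_swap⟩
    rw [← prob_equiv ((Equiv.arrowCongr (Equiv.ofBijective _ hbij) (Equiv.refl Bool)))]
    rw [prob_congr (Q := fun c => c = F)]
    · unfold prob
      have h1 : Nat.card {x : Fin n → Bool // x = F} = 1 :=
        Nat.card_eq_one_iff_unique.2 ⟨⟨fun x y => Subtype.ext (x.2.trans y.2.symm)⟩, ⟨⟨F, rfl⟩⟩⟩
      rw [h1]
      simp
    intro c
    set ω := e.symm (out, (Equiv.arrowCongr (Equiv.ofBijective _ hbij) (Equiv.refl Bool)) c) with hω
    have hout : ∀ z (hz : ¬ colj z), ω z = out ⟨z, hz⟩ := by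
      intro z hz
      simp only [hω, e, Equiv.piEquivPiSubtypeProd, Equiv.coe_fn_symm_mk, dif_pos hz]
    have hin : ∀ k, ω s(k, j) = c k := by
      intro k
      simp only [hω, e, Equiv.piEquivPiSubtypeProd, Equiv.coe_fn_symm_mk, dif_neg (hmem k)]
      have hk : (Equiv.ofBijective _ hbij).symm ⟨s(k, j), hmem k⟩ = k := by
        rw [Equiv.symm_apply_eq]; rfl
      simp only [Equiv.arrowCongr, Equiv.coe_refl, Equiv.coe_fn_mk, Function.comp_apply, id_eq, hk]
    have hFne : ∀ k, (hk : k ≠ j) → F k = xor b (ω s(k, i)) := by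
      intro k hk; simp only [F, dif_neg hk, hout _ (hnot k hk)]
    have hFj : F j = ω s(i, i) := by simp only [F, dif_pos, hout _ hii]
    have bb : ∀ x : Bool, xor b (xor b x) = x := by intro x; cases b <;> cases x <;> rfl
    constructor
    · intro h
      funext k
      rw [← hin k]
      by_cases hk : k = j
      · subst hk
        rw [hFj]
        have h1 : ω s(k, i) = xor b (ω s(k, k)) := h k
        have h2 : ω s(i, i) = xor b (ω s(i, k)) := h i
        rw [Sym2.eq_swap] at h1
        rw [h2, h1, bb]
      · rw [hFne k hk]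
        have h1 : ω s(k, i) = xor b (ω s(k, j)) := h k
        rw [h1, bb]
    · intro h k
      show ω s(k, i) = xor b (ω s(k, j))
      rw [hin k, h]
      by_cases hk : k = j
      · subst hk
        rw [hFj]
        have : ω s(i, k) = xor b (ω s(i, i)) := by rw [hin i, h, hFne i hij]
        rw [Sym2.eq_swap, this]
      · rw [hFne k hk, bb]
  simp only [hone, Finset.sum_const, Finset.card_univ, nsmul_eq_mul]
  have : ((Fintype.card ({z // ¬ colj z} → Bool) : ℝ)) ≠ 0 := by simp
  rw [mul_div_assoc, mul_comm, div_mul_cancel₀ _ this]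

/-- Flip one coordinate. -/
def flipAt {α : Type} [DecidableEq α] (a : α) : (α → Bool) ≃ (α → Bool) where
  toFun x := Function.update x a (!(x a))
  invFun x := Function.update x a (!(x a))
  left_inv x := by funext c; by_cases h : c = a <;> simp [h]
  right_inv x := by funext c; by_cases h : c = a <;> simp [h]

theorem flipAt_apply {α : Type} [DecidableEq α] (a c : α) (x : α → Bool) :
    flipAt a x c = if c = a then !(x a) else x c := by
  simp [flipAt, Function.update_apply]

theorem prob_row_le {α : Type} [Fintype α] [DecidableEq α] (i j i' j' : α) (b b' : Bool)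
    (hij : i ≠ j) (hij' : i' ≠ j') (h1 : ¬ (i = i' ∧ j = j' ∧ b = b'))
    (h2 : ¬ (i = j' ∧ j = i')) :
    prob (fun x : α → Bool => x i = xor b (x j) ∧ x i' = xor b' (x j')) ≤ 1 / 4 := by
  set A : (α → Bool) → Prop := fun x => x i = xor b (x j) with hA
  set B : (α → Bool) → Prop := fun x => x i' = xor b' (x j') with hB
  have hhalf : prob B = 1 / 2 := by
    have h := prob_equiv (flipAt i') B
    have hc : prob (fun x : α → Bool => ¬ B x) = prob B := by
      rw [← h]; apply prob_congr; intro x
      simp only [hB, flipAt_apply, if_neg hij'.symm, if_true]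
      cases x i' <;> cases b' <;> cases x j' <;> simp
    have h' := prob_and_not_add (fun _ : α → Bool => True) B
    have ht : prob (fun _ : α → Bool => True) = 1 := by
      classical
      rw [prob_eq_sum]; simp
    simp only [true_and, ht, hc] at h'
    linarith
  by_cases hc : i = i' ∧ j = j'
  · obtain ⟨rfl, rfl⟩ := hc
    have hb : b ≠ b' := fun h => h1 ⟨rfl, rfl, h⟩
    refine le_trans (prob_mono (Q := fun _ => False) ?_) (by rw [prob_false]; norm_num)
    rintro x ⟨ha, hb'⟩
    rw [ha] at hb'
    cases b <;> cases b' <;> cases x j <;> simp_all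
  -- some endpoint of the first pair is not in the second pair
  obtain ⟨a, ha, hai, haj⟩ : ∃ a, (a = i ∨ a = j) ∧ a ≠ i' ∧ a ≠ j' := by
    by_contra hno
    push Not at hno
    have hi := hno i (Or.inl rfl)
    have hj := hno j (Or.inr rfl)
    by_cases hii : i = i'
    · by_cases hji : j = i'
      · exact hij (hii.trans hji.symm)
      · exact hc ⟨hii, hj hji⟩
    · by_cases hji : j = i'
      · exact h2 ⟨hi hii, hji⟩
      · exact hij ((hi hii).trans (hj hji).symm)
  have h := prob_equiv (flipAt a) (fun x => B x ∧ ¬ A x)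
  have hc2 : prob (fun x => B x ∧ A x) = prob (fun x => B x ∧ ¬ A x) := by
    rw [← h]; apply prob_congr; intro x
    simp only [hA, hB, flipAt_apply, if_neg (Ne.symm hai), if_neg (Ne.symm haj)]
    rcases ha with rfl | rfl
    · simp only [if_true, if_neg hij.symm]
      cases x a <;> cases b <;> cases x j <;> simp
    · simp only [if_true, if_neg hij]
      cases x i <;> cases b <;> cases x a <;> simp
  have hsum := prob_and_not_add B A
  have : prob (fun x : α → Bool => A x ∧ B x) = prob (fun x => B x ∧ A x) :=
    prob_congr fun x => and_comm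
  show prob (fun x : α → Bool => A x ∧ B x) ≤ 1 / 4
  linarith

/-- Two different pair events occur together with probability `O(4^(-n))`. -/
theorem prob_pair_and {q q' : (Fin n × Fin n) × Bool} (hq : q ∈ pairSet n) (hq' : q' ∈ pairSet n)
    (hne : q ≠ q') :
    prob (fun ω => PairEvent q ω ∧ PairEvent q' ω) ≤ 256 / 4 ^ n := by
  classical
  obtain ⟨⟨i, j⟩, b⟩ := q
  obtain ⟨⟨i', j'⟩, b'⟩ := q'
  simp only [pairSet, Finset.mem_product, Finset.mem_filter, Finset.mem_univ, true_and, and_true]
    at hq hq'
  let U : Finset (Fin n) := {i, j, i', j'}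
  let f : {k // k ∉ U} × {l // l ∈ U} → Sym2 (Fin n) := fun kl => s((kl.1 : Fin n), (kl.2 : Fin n))
  have hf : Function.Injective f := by
    rintro ⟨k, l⟩ ⟨k', l'⟩ h
    rcases Sym2.eq_iff.1 h with ⟨h1, h2⟩ | ⟨h1, h2⟩
    · exact Prod.ext (Subtype.ext h1) (Subtype.ext h2)
    · exact absurd (show (k : Fin n) ∈ U from h1 ▸ l'.2) k.2
  let li : {l // l ∈ U} := ⟨i, by simp [U]⟩
  let lj : {l // l ∈ U} := ⟨j, by simp [U]⟩
  let li' : {l // l ∈ U} := ⟨i', by simp [U]⟩
  let lj' : {l // l ∈ U} := ⟨j', by simp [U]⟩
  let row : ({l // l ∈ U} → Bool) → Prop := fun x => x li = xor b (x lj) ∧ x li' = xor b' (x lj')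
  let P : ({k // k ∉ U} × {l // l ∈ U} → Bool) → Prop := fun g => ∀ k, row (fun l => g (k, l))
  refine le_trans (prob_mono (Q := fun ω => P (ω ∘ f)) ?_) ?_
  · intro ω ⟨h1, h2⟩ k
    exact ⟨h1 k, h2 k⟩
  rw [prob_comp_inj f hf P, ← prob_equiv (Equiv.curry _ _ _).symm P]
  refine le_trans (le_of_eq ((prob_congr fun x => Iff.rfl).trans (prob_pi (fun _ => row)))) ?_
  rw [Finset.prod_const, Finset.card_univ, Fintype.card_subtype_compl, Fintype.card_coe,
    Fintype.card_fin]
  have hrow : prob row ≤ 1 / 4 := by
    apply prob_row_le li lj li' lj' b b'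
    · intro h; exact hq.ne (congrArg Subtype.val h)
    · intro h; exact hq'.ne (congrArg Subtype.val h)
    · rintro ⟨h1, h2, h3⟩
      exact hne (by simp [congrArg Subtype.val h1 |>.trans rfl, show i = i' from congrArg Subtype.val h1,
        show j = j' from congrArg Subtype.val h2, h3])
    · rintro ⟨h1, h2⟩
      have e1 : i = j' := congrArg Subtype.val h1
      have e2 : j = i' := congrArg Subtype.val h2
      rw [e1, e2] at hq
      exact lt_asymm hq hq'
  have hU : U.card ≤ 4 := Finset.card_le_four
  calc prob row ^ (n - U.card) ≤ (1 / 4 : ℝ) ^ (n - U.card) :=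
        pow_le_pow_left₀ (prob_nonneg _) hrow _
    _ = (4:ℝ) ^ U.card / 4 ^ n := by
        have : U.card ≤ n := by simpa using Finset.card_le_univ U
        rw [one_div_pow, div_eq_div_iff (by positivity) (by positivity), one_mul, ← pow_add]
        congr 1; omega
    _ ≤ 256 / 4 ^ n := by
        gcongr
        calc (4:ℝ) ^ U.card ≤ 4 ^ 4 := pow_le_pow_right₀ (by norm_num) hU
          _ = 256 := by norm_num

end Vale.Agent.P160
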