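import Vale.Agent.P160.Sparse
import Vale.Agent.P160.Dense
import Vale.Agent.P160.Pairs

/-! From integer kernel vectors to the three events mod `p`. -/

noncomputable section

open Finset

namespace Vale.Agent.P160

variable {p : ℕ} [Fact p.Prime]

omit [Fact p.Prime] in
theorem countP_ofFn (q : ZMod p → Bool) : ∀ (n : ℕ) (v : Fin n → ZMod p),
    (List.ofFn v).countP q = (Finset.univ.filter (fun i => q (v i) = true)).card := by
  intro n
  induction n with
  | zero => intro v; simp
  | succ n ih =>
      intro v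
      rw [List.ofFn_succ, List.countP_cons, ih, Finset.card_filter, Finset.card_filter,
        Fin.sum_univ_succ, add_comm]

theorem primitive_exists {n : ℕ} (v : Fin n → ℤ) (hv : v ≠ 0) :
    ∃ (g : ℤ) (w : Fin n → ℤ), g ≠ 0 ∧ (∀ i, v i = g * w i) ∧ ∀ (p : ℕ), p.Prime → ∃ i, ¬ (p : ℤ) ∣ w i := by
  obtain ⟨i0, hi0⟩ : ∃ i, v i ≠ 0 := Function.ne_iff.1 hv
  obtain ⟨w, hw, hg⟩ := Finset.extract_gcd v (s := Finset.univ) ⟨i0, Finset.mem_univ _⟩
  refine ⟨Finset.univ.gcd v, w, ?_, fun i => hw i (Finset.mem_univ _), ?_⟩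
  · intro h
    exact hi0 ((Finset.gcd_eq_zero_iff.1 h) i0 (Finset.mem_univ _))
  · intro p hp
    by_contra hno
    push Not at hno
    have : (p : ℤ) ∣ 1 := hg ▸ Finset.dvd_gcd (fun i _ => hno i)
    have h1 := Int.eq_one_of_dvd_one (by positivity) this
    have := hp.one_lt
    omega

/-- The reduction of the structured event mod `p`. -/
theorem structured_reduction {n zc : ℕ} (T : ℝ) (hp5 : 5 ≤ p)
    (hz : zc = ⌈2 * (n : ℝ) / Real.log n⌉₊)
    (hT : T ≤ Real.exp (-(Real.sqrt (n * Real.log n) / 20)) ^ 2)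
    (ω : Sym2 (Fin n) → Bool) (h : StructuredKernel (symSignMatrix ω)) :
    (∃ q ∈ pairSet n, PairEvent q ω) ∨
      (∃ k ∈ Finset.Icc 3 (n - zc), ∃ S ∈ (Finset.univ : Finset (Fin n)).powersetCard k,
        SuppEvent p S ω) ∨
      DenseEvent p zc T ω := by
  classical
  obtain ⟨v, hv, hker, hcase⟩ := h
  obtain ⟨g, w, hg, hvw, hprim⟩ := primitive_exists v hv
  set u : Fin n → ZMod p := fun i => (w i : ZMod p) with hu
  have hkerw : ∀ i, ∑ j, sgn (ω s(i, j)) * w j = 0 := by
    intro i
    have h1 := congrFun hker i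
    simp only [Matrix.mulVec, dotProduct, symSignMatrix, Pi.zero_apply, hvw] at h1
    have : g * ∑ j, sgn (ω s(i, j)) * w j = 0 := by
      rw [Finset.mul_sum]; refine Eq.trans (Finset.sum_congr rfl fun j _ => by ring) h1
    exact (mul_eq_zero.1 this).resolve_left hg
  have hkeru : ∀ i, ∑ j, sgnF p (ω s(i, j)) * u j = 0 := by
    intro i
    have h1 := congrArg (fun x : ℤ => (x : ZMod p)) (hkerw i)
    simpa only [Int.cast_sum, Int.cast_mul, Int.cast_zero, cast_sgn, hu] using h1
  set S := Finset.univ.filter (fun i => u i ≠ 0) with hS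
  have hSmem : ∀ i, u i ≠ 0 ↔ i ∈ S := by simp [hS]
  obtain ⟨i0, hi0⟩ := hprim p Fact.out
  have hi0S : i0 ∈ S := by
    rw [← hSmem]; simp only [hu, ne_eq, ZMod.intCast_zmod_eq_zero_iff_dvd]; exact hi0
  by_cases hk : S.card + zc ≤ n
  · have hsum : ∀ k, ∑ j ∈ S, sgnF p (ω s(k, j)) * u j = 0 := by
      intro k
      refine Eq.trans (Finset.sum_subset (Finset.subset_univ S) ?_) (hkeru k)
      intro j _ hj
      have : u j = 0 := by by_contra h; exact hj ((hSmem j).1 h)
      rw [this, mul_zero]
    have hne : ∀ b, sgnF p b ≠ 0 := by intro b; cases b <;> simp [sgnF]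
    rcases (by have := Finset.card_pos.2 ⟨i0, hi0S⟩; omega : S.card = 1 ∨ S.card = 2 ∨ 3 ≤ S.card)
      with h1 | h2 | h3
    · obtain ⟨a, ha⟩ := Finset.card_eq_one.1 h1
      have := hsum a
      rw [ha, Finset.sum_singleton] at this
      rcases mul_eq_zero.1 this with h | h
      · exact absurd h (hne _)
      · exact absurd h ((hSmem a).2 (by simp [ha]))
    · left
      obtain ⟨a, b, hab, hS2⟩ := Finset.card_eq_two.1 h2
      obtain ⟨i, j, hij, hSij⟩ : ∃ i j, i < j ∧ S = {i, j} := by
        rcases lt_or_gt_of_ne hab with h | h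
        · exact ⟨a, b, h, hS2⟩
        · exact ⟨b, a, h, by rw [hS2, Finset.pair_comm]⟩
      refine ⟨((i, j), xor (ω s(i, i)) (ω s(i, j))),
        Finset.mem_product.2 ⟨by simp [hij], Finset.mem_univ _⟩, fun k => ?_⟩
      have hk1 := hsum k
      have hi1 := hsum i
      rw [hSij, Finset.sum_pair hij.ne] at hk1 hi1
      have hui : u i ≠ 0 := (hSmem i).2 (by simp [hSij])
      have key : sgnF p (ω s(k, i)) * sgnF p (ω s(i, j))
          = sgnF p (ω s(k, j)) * sgnF p (ω s(i, i)) := by
        apply mul_right_cancel₀ hui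
        linear_combination sgnF p (ω s(i, j)) * hk1 - sgnF p (ω s(k, j)) * hi1
      have hinj := sgnF_injective (p := p) hp5
      show ω s(k, i) = xor (xor (ω s(i, i)) (ω s(i, j))) (ω s(k, j))
      generalize ω s(k, i) = x1 at *
      generalize ω s(i, j) = x2 at *
      generalize ω s(k, j) = x3 at *
      generalize ω s(i, i) = x4 at *
      have hmul : ∀ a b : Bool, sgnF p a * sgnF p b = sgnF p (decide (a = b)) := by
        intro a b; cases a <;> cases b <;> simp [sgnF]
      rw [hmul, hmul] at key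
      have := hinj key
      cases x1 <;> cases x2 <;> cases x3 <;> cases x4 <;> simp_all
    · right; left
      exact ⟨S.card, Finset.mem_Icc.2 ⟨h3, by omega⟩, S, by simp [Finset.mem_powersetCard],
        u, hSmem, hkeru⟩
  · right; right
    have hcount : (Finset.univ.filter (fun i => u i = 0)).card + S.card = n := by
      have := Finset.card_filter_add_card_filter_not (s := (Finset.univ : Finset (Fin n))) (fun i => u i = 0)
      rw [Finset.card_fin] at this
      exact this
    have hzv : numZeros v ≤ (Finset.univ.filter (fun i => u i = 0)).card := by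
      apply Finset.card_le_card
      intro i hi
      simp only [Finset.mem_filter, Finset.mem_univ, true_and] at hi ⊢
      rw [hvw, mul_eq_zero] at hi
      simp [hu, hi.resolve_left hg]
    rcases hcase with hzero | ⟨a, ha⟩
    · exfalso
      have : zc ≤ numZeros v := by rw [hz]; exact Nat.ceil_le.2 hzero
      omega
    refine ⟨u, ?_, ?_, hkeru⟩
    · refine le_trans hT (le_trans (pow_le_pow_left₀ (Real.exp_nonneg _) ?_ 2)
        (sq_le_coll (List.ofFn u) ((a / g : ℤ) : ZMod p)))
      refine le_trans ha ?_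
      rw [signSumProb, ← law_eq_prob]
      refine prob_mono fun x hx => ?_
      have h1 : g * ∑ i, sgn (x i) * w i = a := by
        rw [← hx, Finset.mul_sum]; exact Finset.sum_congr rfl fun i _ => by rw [hvw]; ring
      rw [← h1, Int.mul_ediv_cancel_left _ hg]
      simp [hu, cast_sgn]
    · rw [countP_ofFn]
      simp only [decide_eq_true_eq]
      omega

/-- A pair event gives a structured kernel vector. -/
theorem structured_of_pair {n : ℕ} (hn : 2 * (n : ℝ) / Real.log n ≤ (n : ℝ) - 2)
    {q : (Fin n × Fin n) × Bool} (hq : q ∈ pairSet n) (ω : Sym2 (Fin n) → Bool)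
    (h : PairEvent q ω) : StructuredKernel (symSignMatrix ω) := by
  classical
  obtain ⟨⟨i, j⟩, b⟩ := q
  simp only [pairSet, Finset.mem_product, Finset.mem_filter, Finset.mem_univ, true_and, and_true] at hq
  have hij : i ≠ j := hq.ne
  refine ⟨Pi.single i 1 + Pi.single j (if b then 1 else -1), ?_, ?_, Or.inl (le_trans hn ?_)⟩
  · intro h0
    have := congrFun h0 i
    simp [hij] at this
  · funext k
    have hk : ω s(k, i) = xor b (ω s(k, j)) := h k
    simp [Matrix.mulVec_add, Matrix.mulVec_single, symSignMatrix, hk, sgn]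
    cases b <;> cases hx : ω s(k, j) <;> simp [symSignMatrix, sgn, hx]
  · let V : Fin n → ℤ := Pi.single i 1 + Pi.single j (if b then 1 else -1)
    have hsub : (Finset.univ \ {i, j} : Finset (Fin n)) ⊆ Finset.univ.filter (fun k => V k = 0) := by
      intro k hk
      simp only [Finset.mem_sdiff, Finset.mem_univ, true_and, Finset.mem_insert, Finset.mem_singleton,
        not_or] at hk
      simp [V, hk.1, hk.2]
    have h1 := Finset.card_le_card hsub
    rw [Finset.card_univ_sdiff, Fintype.card_fin, Finset.card_pair hij] at h1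
    have h2 : ((n - 2 : ℕ) : ℝ) ≤ (numZeros V : ℝ) := by
      exact_mod_cast h1
    refine le_trans ?_ h2
    rcases le_total 2 n with h | h
    · rw [Nat.cast_sub h]; simp
    · rw [Nat.sub_eq_zero_of_le h]
      have : (n:ℝ) ≤ 2 := by exact_mod_cast h
      simp; linarith

theorem structured_singular {n : ℕ} (ω : Sym2 (Fin n) → Bool)
    (h : StructuredKernel (symSignMatrix ω)) : (symSignMatrix ω).det = 0 := by
  obtain ⟨v, hv, hk, -⟩ := h
  exact Matrix.exists_mulVec_eq_zero_iff.1 ⟨v, hv, hk⟩

end Vale.Agent.P160
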