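import Vale.Agent.P160.Exposure

/-! Kernel vectors with many zero coordinates. -/

noncomputable section

open Finset Module

namespace Vale.Agent.P160

variable {p : ℕ} [Fact p.Prime]

theorem prob_dot_le {κ : Type} [Fintype κ] [DecidableEq κ] (v : κ → ZMod p) (a : ℝ)
    (h : ∀ s, law (List.ofFn fun i => v ((Fintype.equivFin κ).symm i)) s ≤ a) :
    prob (fun x : κ → Bool => ∑ j, sgnF p (x j) * v j = 0) ≤ a := by
  classical
  refine le_trans (le_of_eq ?_) (h 0)
  rw [← law_eq_prob, ← prob_equiv (Equiv.arrowCongr (Fintype.equivFin κ).symm (Equiv.refl Bool))]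
  apply prob_congr
  intro x
  rw [← (Fintype.equivFin κ).symm.sum_comp]
  simp [Equiv.arrowCongr]

/-- If independent sign rows have a common full-support annihilated vector in a small subspace. -/
theorem prob_rows_le {ι κ : Type} [Fintype ι] [Fintype κ] [DecidableEq ι] [DecidableEq κ]
    (K : Submodule (ZMod p) (κ → ZMod p)) (d : ℕ) (hd : finrank (ZMod p) K ≤ d)
    (hdN : d ≤ Fintype.card ι) (a : ℝ) (ha : 0 ≤ a)
    (hat : ∀ v : κ → ZMod p, (∀ j, v j ≠ 0) →
      prob (fun x : κ → Bool => ∑ j, sgnF p (x j) * v j = 0) ≤ a) :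
    prob (fun C : ι → κ → Bool => ∃ v ∈ K, (∀ j, v j ≠ 0) ∧
        ∀ i, ∑ j, sgnF p (C i j) * v j = 0)
      ≤ ((Fintype.card ι).choose d : ℝ) * a ^ (Fintype.card ι - d) := by
  classical
  let good : Finset ι → (ι → κ → Bool) → Prop := fun J C =>
    (∃ v ∈ K, (∀ j, v j ≠ 0) ∧ ∀ i ∈ J, ∑ j, sgnF p (C i j) * v j = 0) ∧
      ∀ v ∈ K, (∀ i ∈ J, ∑ j, sgnF p (C i j) * v j = 0) → ∀ i, ∑ j, sgnF p (C i j) * v j = 0
  have hsub : ∀ C, (∃ v ∈ K, (∀ j, v j ≠ 0) ∧ ∀ i, ∑ j, sgnF p (C i j) * v j = 0) →
      ∃ J ∈ (Finset.univ : Finset ι).powersetCard d, good J C := by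
    rintro C ⟨v, hv, hv0, hvC⟩
    let φ : ι → Module.Dual (ZMod p) K := fun i =>
      (Fintype.linearCombination (ZMod p) (fun j => sgnF p (C i j))).comp K.subtype
    have hφ : ∀ i (w : κ → ZMod p) (hw : w ∈ K), φ i ⟨w, hw⟩ = ∑ j, sgnF p (C i j) * w j := by
      intro i w hw
      simp [φ, Fintype.linearCombination_apply, mul_comm]
    obtain ⟨b, hb1, hb2, hb3⟩ := exists_linearIndependent (ZMod p) (Set.range φ)
    have hbfin : b.Finite := (Set.finite_range φ).subset hb1
    have : Fintype b := hbfin.fintype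
    have hbc : Fintype.card b ≤ d := by
      refine le_trans hb3.fintype_card_le_finrank ?_
      rwa [Subspace.dual_finrank_eq]
    choose g hg using fun x : b => hb1 x.2
    let J0 : Finset ι := Finset.univ.image g
    have hJ0 : J0.card ≤ d := le_trans Finset.card_image_le (by simpa using hbc)
    obtain ⟨J, hJsub, -, hJc⟩ := Finset.exists_subsuperset_card_eq (Finset.subset_univ J0) hJ0
      (by simpa using hdN)
    refine ⟨J, by simp [Finset.mem_powersetCard, hJc], ⟨v, hv, hv0, fun i _ => hvC i⟩, ?_⟩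
    intro w hw hwJ i
    rw [← hφ i w hw]
    have hmem : φ i ∈ Submodule.span (ZMod p) b := by
      rw [hb2]; exact Submodule.subset_span ⟨i, rfl⟩
    refine (Submodule.span_le (p := LinearMap.ker (Module.Dual.eval (ZMod p) K ⟨w, hw⟩))).2 ?_ hmem
    intro x hx
    have := hwJ (g ⟨x, hx⟩) (hJsub (Finset.mem_image.2 ⟨⟨x, hx⟩, by simp, rfl⟩))
    rw [← hφ _ w hw, hg] at this
    simpa using this
  refine le_trans (prob_mono hsub) (le_trans (prob_exists_le _ _) ?_)
  refine le_trans (Finset.sum_le_sum (g := fun _ => a ^ (Fintype.card ι - d)) fun J hJ => ?_) ?_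
  · have hJc : J.card = d := (Finset.mem_powersetCard.1 hJ).2
    let e := Equiv.piEquivPiSubtypeProd (fun i => i ∈ J) (fun _ : ι => κ → Bool)
    rw [← prob_equiv e.symm]
    refine prob_prod_le _ _ (by positivity) ?_
    intro cJ
    by_cases hex : ∃ v ∈ K, (∀ j, v j ≠ 0) ∧ ∀ i : {i // i ∈ J}, ∑ j, sgnF p (cJ i j) * v j = 0
    · obtain ⟨v0, hv0, hv0n, hv0J⟩ := hex
      refine le_trans (prob_mono (Q := fun c' : {i // i ∉ J} → κ → Bool =>
        ∀ i, ∑ j, sgnF p (c' i j) * v0 j = 0) ?_) ?_
      · intro c' hgood i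
        have := hgood.2 v0 hv0 (fun k hk => by simpa [e, hk] using hv0J ⟨k, hk⟩) i.1
        simpa [e, i.2] using this
      · rw [prob_pi (fun (_ : {i // i ∉ J}) (x : κ → Bool) => ∑ j, sgnF p (x j) * v0 j = 0),
          Finset.prod_const]
        refine le_trans (pow_le_pow_left₀ (prob_nonneg _) (hat v0 hv0n) _) (le_of_eq ?_)
        congr 1
        rw [Finset.card_univ, Fintype.card_subtype_compl, Fintype.card_coe, hJc]
    · refine le_trans (prob_mono (Q := fun _ => False) ?_) (by rw [prob_false]; positivity)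
      intro c' hgood
      obtain ⟨v, hv, hvn, hvJ⟩ := hgood.1
      exact hex ⟨v, hv, hvn, fun i => by simpa [e, i.2] using hvJ i.1 i.2⟩
  · simp [Finset.card_powersetCard]

/-- Kernel of the symmetric sign matrix over `ZMod p` given by `D`. -/
def symKer {κ : Type} [Fintype κ] (p : ℕ) (D : Sym2 κ → Bool) [Fact p.Prime] :
    Submodule (ZMod p) (κ → ZMod p) :=
  LinearMap.ker (Matrix.mulVecLin (Matrix.of fun i j => sgnF p (D s(i, j))))

theorem mem_symKer {κ : Type} [Fintype κ] (D : Sym2 κ → Bool) (v : κ → ZMod p) :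
    v ∈ symKer p D ↔ ∀ i, ∑ j, sgnF p (D s(i, j)) * v j = 0 := by
  simp [symKer, LinearMap.mem_ker, funext_iff, Matrix.mulVec, dotProduct]

theorem sgnF_injective (hp5 : 5 ≤ p) : Function.Injective (sgnF p) := by
  have h : (1 : ZMod p) ≠ -1 := by
    intro h
    have : ((2:ℕ) : ZMod p) = 0 := by push_cast; linear_combination h
    rw [ZMod.natCast_eq_zero_iff] at this
    have := Nat.le_of_dvd (by norm_num) this
    omega
  intro a b hab
  cases a <;> cases b <;> simp_all [sgnF, h.symm]

/-- A symmetric sign matrix has corank more than `d` with probability `≤ C(k,d) 2^(-(d+1 choose 2))`. -/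
theorem prob_corank_le (hp5 : 5 ≤ p) {κ : Type} [Fintype κ] [DecidableEq κ] (d : ℕ) :
    prob (fun D : Sym2 κ → Bool => d < finrank (ZMod p) (symKer p D))
      ≤ ((Fintype.card κ).choose d : ℝ) / 2 ^ ((d + 1).choose 2) := by
  classical
  rcases lt_or_ge (Fintype.card κ) d with hkd | hkd
  · refine le_trans (prob_mono (Q := fun _ => False) ?_) (by rw [prob_false]; positivity)
    intro D hD
    have := Submodule.finrank_le (symKer p D)
    simp only [finrank_fintype_fun_eq_card] at this
    omega
  let M : (Sym2 κ → Bool) → κ → κ → ZMod p := fun D i j => sgnF p (D s(i, j))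
  let ev : Finset κ → (Sym2 κ → Bool) → Prop := fun U D =>
    ∀ i, M D i ∈ Submodule.span (ZMod p) (M D '' {t | t ∉ U})
  have hsub : ∀ D, d < finrank (ZMod p) (symKer p D) →
      ∃ U ∈ (Finset.univ : Finset κ).powersetCard d, ev U D := by
    intro D hD
    obtain ⟨b, hb1, hb2, hb3⟩ := exists_linearIndependent (ZMod p) (Set.range (M D))
    have hbfin : b.Finite := (Set.finite_range (M D)).subset hb1
    have : Fintype b := hbfin.fintype
    choose g hg using fun x : b => hb1 x.2
    have hbc : Fintype.card b + d ≤ Fintype.card κ := by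
      have h1 : Fintype.card b ≤ finrank (ZMod p) (Submodule.span (ZMod p) (Set.range (M D))) := by
        rw [← hb2, finrank_span_set_eq_card hb3, Set.toFinset_card]
      have h2 := (Matrix.mulVecLin (Matrix.of (M D))).finrank_range_add_finrank_ker
      have h3 : finrank (ZMod p) (LinearMap.range (Matrix.mulVecLin (Matrix.of (M D))))
          = finrank (ZMod p) (Submodule.span (ZMod p) (Set.range (M D))) :=
        Matrix.rank_eq_finrank_span_row (Matrix.of (M D))
      rw [h3, finrank_fintype_fun_eq_card] at h2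
      have : d < finrank (ZMod p) (LinearMap.ker (Matrix.mulVecLin (Matrix.of (M D)))) := hD
      omega
    let T0 : Finset κ := Finset.univ.image g
    have hT0 : d ≤ T0ᶜ.card := by
      rw [Finset.card_compl]
      have : T0.card ≤ Fintype.card b := le_trans Finset.card_image_le (by simp)
      omega
    obtain ⟨U, hU1, hU2⟩ := Finset.exists_subset_card_eq hT0
    refine ⟨U, by simp [Finset.mem_powersetCard, hU2], fun i => ?_⟩
    have : M D i ∈ Submodule.span (ZMod p) b := by rw [hb2]; exact Submodule.subset_span ⟨i, rfl⟩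
    refine Submodule.span_mono ?_ this
    intro x hx
    refine ⟨g ⟨x, hx⟩, ?_, hg _⟩
    intro hmem
    have := hU1 hmem
    simp [T0] at this
  refine le_trans (prob_mono hsub) (le_trans (prob_exists_le _ _) ?_)
  refine le_trans (Finset.sum_le_sum (g := fun _ => 1 / (2:ℝ) ^ ((d + 1).choose 2)) fun U hU => ?_) ?_
  · have hUc : U.card = d := (Finset.mem_powersetCard.1 hU).2
    let inU : Sym2 κ → Prop := fun z => ∀ x ∈ z, x ∈ U
    let e := Equiv.piEquivPiSubtypeProd (fun z : Sym2 κ => ¬ inU z) (fun _ => Bool)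
    rw [← prob_equiv e.symm]
    refine prob_prod_le _ _ (by positivity) ?_
    intro out
    -- at most one completion
    have huniq : ∀ c c', ev U (e.symm (out, c)) → ev U (e.symm (out, c')) → c = c' := by
      intro c c' h h'
      set D := e.symm (out, c) with hDdef
      set D' := e.symm (out, c') with hD'def
      have hagree : ∀ i j, i ∉ U → M D i j = M D' i j := by
        intro i j hi
        have hn : ¬ inU s(i, j) := fun h => hi (h i (Sym2.mem_mk_left _ _))
        simp only [M, hDdef, hD'def, e, Equiv.piEquivPiSubtypeProd, Equiv.coe_fn_symm_mk, dif_pos hn]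
      have hsym : ∀ (E : Sym2 κ → Bool) i j, M E i j = M E j i := by
        intro E i j; simp only [M, Sym2.eq_swap]
      have himg : ∀ E : Sym2 κ → Bool, M E '' {t | t ∉ U} = M E '' ((Uᶜ : Finset κ) : Set κ) := by
        intro E; congr 1; ext t; simp
      have key : ∀ u w, M D u w = M D' u w := by
        intro u w
        have hu := h u; have hu' := h' u; have hw := h w
        rw [himg, Submodule.mem_span_image_finset_iff_exists_fun] at hu hu' hw
        obtain ⟨α, hα⟩ := hu
        obtain ⟨α', hα'⟩ := hu'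
        obtain ⟨γ, hγ⟩ := hw
        have a1 : ∀ j, ∑ t : (Uᶜ : Finset κ), α t * M D t j = M D u j := fun j => by
          rw [← hα]; simp [Finset.sum_apply]
        have a2 : ∀ j, ∑ t : (Uᶜ : Finset κ), α' t * M D' t j = M D' u j := fun j => by
          rw [← hα']; simp [Finset.sum_apply]
        have a3 : ∀ j, ∑ t : (Uᶜ : Finset κ), γ t * M D t j = M D w j := fun j => by
          rw [← hγ]; simp [Finset.sum_apply]
        have a2' : ∀ j, ∑ t : (Uᶜ : Finset κ), α' t * M D t j = M D' u j := fun j => by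
          rw [← a2]
          exact Finset.sum_congr rfl fun t _ => by rw [hagree _ _ (Finset.mem_compl.1 t.2)]
        have hz : ∀ s : (Uᶜ : Finset κ), M D u s = M D' u s := fun s => by
          rw [hsym D, hsym D', hagree _ _ (Finset.mem_compl.1 s.2)]
        calc M D u w = ∑ t : (Uᶜ : Finset κ), α t * M D t w := (a1 w).symm
          _ = ∑ t : (Uᶜ : Finset κ), ∑ s : (Uᶜ : Finset κ), α t * (γ s * M D s t) := by
              refine Finset.sum_congr rfl fun t _ => ?_
              rw [← Finset.mul_sum, a3 t.1, hsym D w]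
          _ = ∑ s : (Uᶜ : Finset κ), γ s * M D u s := by
              rw [Finset.sum_comm]
              refine Finset.sum_congr rfl fun s _ => ?_
              rw [← a1 s, Finset.mul_sum]
              exact Finset.sum_congr rfl fun t _ => by rw [hsym D s.1 t.1]; ring
          _ = ∑ s : (Uᶜ : Finset κ), γ s * M D' u s := by simp only [hz]
          _ = ∑ t : (Uᶜ : Finset κ), ∑ s : (Uᶜ : Finset κ), α' t * (γ s * M D s t) := by
              rw [Finset.sum_comm]
              refine Finset.sum_congr rfl fun s _ => ?_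
              rw [← a2' s, Finset.mul_sum]
              exact Finset.sum_congr rfl fun t _ => by rw [hsym D s.1 t.1]; ring
          _ = ∑ t : (Uᶜ : Finset κ), α' t * M D t w := by
              refine Finset.sum_congr rfl fun t _ => ?_
              rw [← Finset.mul_sum, a3 t.1, hsym D w]
          _ = M D' u w := a2' w
      funext z
      obtain ⟨z, hz⟩ := z
      induction z using Sym2.ind with
      | h u w =>
        have hk := sgnF_injective hp5 (key u w)
        have hin : inU s(u, w) := not_not.1 hz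
        simpa [hDdef, hD'def, e, Equiv.piEquivPiSubtypeProd, hin] using hk
    unfold prob
    have hcard : Fintype.card ({z : Sym2 κ // ¬¬ inU z} → Bool) = 2 ^ ((d + 1).choose 2) := by
      rw [Fintype.card_fun, Fintype.card_bool]
      congr 1
      have e2 : {z : Sym2 κ // ¬¬ inU z} ≃ {z // z ∈ U.sym2} :=
        Equiv.subtypeEquivRight fun z => by simp [inU, Finset.mem_sym2_iff]
      rw [Fintype.card_congr e2, Fintype.card_coe, Finset.card_sym2, hUc]
    rw [hcard]
    push_cast
    gcongr
    rw [show (1:ℝ) = ((1:ℕ):ℝ) by simp]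
    exact_mod_cast Finite.card_le_one_iff_subsingleton.2 ⟨fun x y => Subtype.ext (huniq _ _ x.2 y.2)⟩
  · simp [Finset.card_powersetCard, div_eq_mul_inv]

/-- The symmetric index map for a set `S` of columns and the rows outside it. -/
def blockMap {n : ℕ} (S : Finset (Fin n)) :
    Sym2 {i // i ∈ S} ⊕ ({i // i ∉ S} × {i // i ∈ S}) → Sym2 (Fin n) :=
  Sum.elim (Sym2.map Subtype.val) (fun ij => s((ij.1 : Fin n), (ij.2 : Fin n)))

theorem blockMap_injective {n : ℕ} (S : Finset (Fin n)) : Function.Injective (blockMap S) := by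
  rintro (a | ⟨i, j⟩) (b | ⟨i', j'⟩) h <;> simp only [blockMap, Sum.elim_inl, Sum.elim_inr] at h
  · exact congrArg Sum.inl (Sym2.map.injective Subtype.val_injective h)
  · exfalso
    have : (i' : Fin n) ∈ Sym2.map Subtype.val a := by rw [h]; exact Sym2.mem_mk_left _ _
    obtain ⟨c, -, hc⟩ := Sym2.mem_map.1 this
    exact i'.2 (hc ▸ c.2)
  · exfalso
    have : (i : Fin n) ∈ Sym2.map Subtype.val b := by rw [← h]; exact Sym2.mem_mk_left _ _
    obtain ⟨c, -, hc⟩ := Sym2.mem_map.1 this
    exact i.2 (hc ▸ c.2)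
  · rcases Sym2.eq_iff.1 h with ⟨h1, h2⟩ | ⟨h1, h2⟩
    · rw [Subtype.ext h1, Subtype.ext h2]
    · exact absurd (h1 ▸ j'.2) i.2

/-- Transfer a uniform probability through the block map. -/
theorem prob_block {n : ℕ} (S : Finset (Fin n))
    (P : (Sym2 {i // i ∈ S} → Bool) × ({i // i ∉ S} → {i // i ∈ S} → Bool) → Prop) :
    prob (fun ω : Sym2 (Fin n) → Bool =>
      P (fun z => ω (z.map Subtype.val), fun i j => ω s((i : Fin n), (j : Fin n)))) = prob P := by
  classical
  let e : (Sym2 {i // i ∈ S} ⊕ ({i // i ∉ S} × {i // i ∈ S}) → Bool) ≃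
      (Sym2 {i // i ∈ S} → Bool) × ({i // i ∉ S} → {i // i ∈ S} → Bool) :=
    (Equiv.sumArrowEquivProdArrow _ _ _).trans (Equiv.prodCongr (Equiv.refl _) (Equiv.curry _ _ _))
  rw [← prob_equiv e, ← prob_comp_inj (blockMap S) (blockMap_injective S) (fun f => P (e f))]
  rfl

/-- Event: some kernel vector mod `p` has support exactly `S`. -/
def SuppEvent (p : ℕ) [Fact p.Prime] {n : ℕ} (S : Finset (Fin n)) (ω : Sym2 (Fin n) → Bool) : Prop :=
  ∃ v : Fin n → ZMod p, (∀ i, v i ≠ 0 ↔ i ∈ S) ∧ ∀ i, ∑ j, sgnF p (ω s(i, j)) * v j = 0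

theorem prob_supp_le (hp5 : 5 ≤ p) {n : ℕ} (S : Finset (Fin n)) (d : ℕ) (hd : d + S.card ≤ n)
    (a : ℝ) (ha : 0 ≤ a)
    (hat : ∀ v : {i // i ∈ S} → ZMod p, (∀ j, v j ≠ 0) →
      prob (fun x : {i // i ∈ S} → Bool => ∑ j, sgnF p (x j) * v j = 0) ≤ a) :
    prob (SuppEvent p S) ≤
      (if d < S.card then (S.card.choose d : ℝ) / 2 ^ ((d + 1).choose 2) else 0)
        + ((n - S.card).choose d : ℝ) * a ^ (n - S.card - d) := by
  classical
  let P : (Sym2 {i // i ∈ S} → Bool) × ({i // i ∉ S} → {i // i ∈ S} → Bool) → Prop := fun DC =>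
    ∃ v ∈ symKer p DC.1, (∀ j, v j ≠ 0) ∧ ∀ i, ∑ j, sgnF p (DC.2 i j) * v j = 0
  have hN : Fintype.card {i // i ∉ S} = n - S.card := by
    rw [Fintype.card_subtype_compl, Fintype.card_coe, Fintype.card_fin]
  refine le_trans (prob_mono (Q := fun ω : Sym2 (Fin n) → Bool =>
    P (fun z => ω (z.map Subtype.val), fun i j => ω s((i : Fin n), (j : Fin n)))) ?_) ?_
  · rintro ω ⟨v, hv, hker⟩
    have hsum : ∀ i : Fin n, ∑ j : {j // j ∈ S}, sgnF p (ω s(i, (j : Fin n))) * v j = 0 := by
      intro i
      rw [Finset.sum_coe_sort S (fun j => sgnF p (ω s(i, j)) * v j)]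
      refine Eq.trans (Finset.sum_subset (Finset.subset_univ S) ?_) (hker i)
      intro j _ hj
      have : v j = 0 := by by_contra h; exact hj ((hv j).1 h)
      rw [this, mul_zero]
    refine ⟨fun j => v j, ?_, fun j => (hv j).2 j.2, fun i => hsum i⟩
    rw [mem_symKer]
    intro i
    simpa using hsum i
  rw [prob_block S P]
  refine le_trans (prob_prod_le' P (fun D => d < finrank (ZMod p) (symKer p D))
    (((n - S.card).choose d : ℝ) * a ^ (n - S.card - d)) (by positivity) ?_) ?_
  · intro D hD
    rw [← hN]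
    exact prob_rows_le (symKer p D) d (by omega) (by rw [hN]; omega) a ha hat
  · gcongr
    split_ifs with h
    · simpa using prob_corank_le (κ := {i // i ∈ S}) hp5 d
    · refine le_trans (prob_mono (Q := fun _ => False) ?_) (by rw [prob_false])
      intro D hD
      have := Submodule.finrank_le (symKer p D)
      simp only [finrank_fintype_fun_eq_card, Fintype.card_coe] at this
      omega

end Vale.Agent.P160
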