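import Vale.Agent.P160.Prob

/-! Signed random walks on `ZMod p` and their collision probabilities. -/

noncomputable section

open Finset
open scoped Pointwise

namespace Vale.Agent.P160

variable {p : ℕ} [Fact p.Prime]

/-- Law of `±x₁ ± ... ± x_k` in `ZMod p`. -/
def law : List (ZMod p) → ZMod p → ℝ
  | [], s => if s = 0 then 1 else 0
  | x :: l, s => (law l (s - x) + law l (s + x)) / 2

/-- Collision probability of the signed sum. -/
def coll (l : List (ZMod p)) : ℝ := ∑ s, (law l s) ^ 2

/-- Autocorrelation. -/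
def corr (l : List (ZMod p)) (d : ZMod p) : ℝ := ∑ s, law l s * law l (s + d)

/-- Shift defect `coll - corr`. -/
def defect (l : List (ZMod p)) (d : ZMod p) : ℝ := coll l - corr l d

theorem law_nonneg (l : List (ZMod p)) (s : ZMod p) : 0 ≤ law l s := by
  induction l generalizing s with
  | nil => simp only [law]; split_ifs <;> norm_num
  | cons x l ih =>
      have := ih (s - x); have := ih (s + x); simp only [law]; linarith

theorem sum_law_shift (l : List (ZMod p)) (d : ZMod p) :
    ∑ s, law l (s + d) = ∑ s, law l s :=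
  Fintype.sum_equiv (Equiv.addRight d) _ _ (fun _ => rfl)

theorem sum_law (l : List (ZMod p)) : ∑ s, law l s = 1 := by
  induction l with
  | nil => simp [law]
  | cons x l ih =>
      simp only [law, ← Finset.sum_div, Finset.sum_add_distrib, sub_eq_add_neg, sum_law_shift, ih]
      norm_num

theorem law_le_one (l : List (ZMod p)) (s : ZMod p) : law l s ≤ 1 := by
  rw [← sum_law l]
  exact Finset.single_le_sum (fun t _ => law_nonneg l t) (Finset.mem_univ s)

theorem coll_le_one (l : List (ZMod p)) : coll l ≤ 1 := by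
  rw [← sum_law l]
  apply Finset.sum_le_sum
  intro s _
  have := law_le_one l s
  have := law_nonneg l s
  nlinarith

theorem coll_nonneg (l : List (ZMod p)) : 0 ≤ coll l := Finset.sum_nonneg fun _ _ => by positivity

theorem sq_le_coll (l : List (ZMod p)) (s : ZMod p) : (law l s) ^ 2 ≤ coll l :=
  Finset.single_le_sum (f := fun t => (law l t) ^ 2) (fun t _ => by positivity) (Finset.mem_univ s)

theorem coll_nil : coll ([] : List (ZMod p)) = 1 := by
  simp [coll, law]

theorem sum_sq_shift (l : List (ZMod p)) (d : ZMod p) :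
    ∑ s, (law l (s + d)) ^ 2 = coll l :=
  Fintype.sum_equiv (Equiv.addRight d) _ _ (fun _ => rfl)

theorem two_defect (l : List (ZMod p)) (d : ZMod p) :
    2 * defect l d = ∑ s, (law l s - law l (s + d)) ^ 2 := by
  have : ∀ s, (law l s - law l (s + d)) ^ 2
      = (law l s) ^ 2 + (law l (s + d)) ^ 2 - 2 * (law l s * law l (s + d)) := fun s => by ring
  simp only [this, Finset.sum_sub_distrib, Finset.sum_add_distrib, sum_sq_shift, ← Finset.mul_sum]
  simp only [defect, corr, coll]
  ring

theorem defect_nonneg (l : List (ZMod p)) (d : ZMod p) : 0 ≤ defect l d := by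
  have h := two_defect l d
  have : 0 ≤ ∑ s, (law l s - law l (s + d)) ^ 2 := Finset.sum_nonneg fun _ _ => by positivity
  linarith

theorem defect_zero (l : List (ZMod p)) : defect l 0 = 0 := by
  simp [defect, corr, coll, sq]

theorem corr_nonneg (l : List (ZMod p)) (d : ZMod p) : 0 ≤ corr l d :=
  Finset.sum_nonneg fun _ _ => mul_nonneg (law_nonneg _ _) (law_nonneg _ _)

theorem sum_corr (l : List (ZMod p)) : ∑ d, corr l d = 1 := by
  simp only [corr]
  rw [Finset.sum_comm]
  have : ∀ s, ∑ d, law l s * law l (s + d) = law l s := by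
    intro s
    rw [← Finset.mul_sum]
    have : ∑ d, law l (s + d) = ∑ d, law l d :=
      Fintype.sum_equiv (Equiv.addLeft s) _ _ (fun _ => rfl)
    rw [this, sum_law, mul_one]
  simp only [this, sum_law]

theorem coll_cons (x : ZMod p) (l : List (ZMod p)) :
    coll (x :: l) = coll l - defect l (2 * x) / 2 := by
  have h : ∀ s, (law (x :: l) s) ^ 2 = (1/4:ℝ) * (law l (s + -x)) ^ 2 + (1/4) * (law l (s + x)) ^ 2
      + (1/2) * (law l (s + -x) * law l (s + x)) := by
    intro s; simp only [law, sub_eq_add_neg]; ring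
  have h2 : ∑ s, law l (s + -x) * law l (s + x) = corr l (2 * x) := by
    refine Fintype.sum_equiv (Equiv.addRight (-x)) _ _ (fun s => ?_)
    simp only [Equiv.coe_addRight]
    ring_nf
  simp only [coll, h, Finset.sum_add_distrib, ← Finset.mul_sum, h2]
  have h3 := sum_sq_shift l (-x)
  have h4 := sum_sq_shift l x
  rw [h3, h4, defect]
  simp only [coll]
  ring

theorem coll_cons_le (x : ZMod p) (l : List (ZMod p)) : coll (x :: l) ≤ coll l := by
  rw [coll_cons]; have := defect_nonneg l (2 * x); linarith

theorem coll_cons_zero (l : List (ZMod p)) : coll ((0 : ZMod p) :: l) = coll l := by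
  rw [coll_cons]; simp [defect_zero]

theorem defect_add_le (l : List (ZMod p)) (a b : ZMod p) (j : ℝ) (hj : 0 < j) :
    defect l (a + b) ≤ (1 + 1 / j) * defect l a + (1 + j) * defect l b := by
  have h2a := two_defect l a
  have h2b := two_defect l b
  have h2ab := two_defect l (a + b)
  have hb : ∑ s, (law l (s + a) - law l (s + (a + b))) ^ 2
      = ∑ s, (law l s - law l (s + b)) ^ 2 := by
    refine Fintype.sum_equiv (Equiv.addRight a) _ _ (fun s => ?_)
    simp [add_assoc]
  have hp : ∀ s, (law l s - law l (s + (a + b))) ^ 2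
      ≤ (1 + 1 / j) * (law l s - law l (s + a)) ^ 2
        + (1 + j) * (law l (s + a) - law l (s + (a + b))) ^ 2 := by
    intro s
    generalize law l s = u
    generalize law l (s + a) = v
    generalize law l (s + (a + b)) = w
    have key : 0 ≤ (1 / j) * ((u - v) - j * (v - w)) ^ 2 := by positivity
    have : (1 / j) * ((u - v) - j * (v - w)) ^ 2
        = (1 / j) * (u - v) ^ 2 - 2 * (u - v) * (v - w) + j * (v - w) ^ 2 := by
      field_simp; ring
    nlinarith
  have := Finset.sum_le_sum (s := Finset.univ) fun s _ => hp s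
  rw [Finset.sum_add_distrib, ← Finset.mul_sum, ← Finset.mul_sum, hb, ← h2a, ← h2b, ← h2ab] at this
  nlinarith

theorem defect_sum_le (l : List (ZMod p)) (D : ℝ) (_hD : 0 ≤ D) :
    ∀ (j : ℕ) (x : Fin j → ZMod p), (∀ i, defect l (x i) ≤ D) →
      defect l (∑ i, x i) ≤ (j : ℝ) ^ 2 * D := by
  intro j
  induction j with
  | zero => intro x _; simp [defect_zero]
  | succ j ih =>
      intro x hx
      rcases Nat.eq_zero_or_pos j with rfl | hj
      · simpa using hx 0
      rw [Fin.sum_univ_castSucc]
      have hj' : (0:ℝ) < j := by exact_mod_cast hj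
      have h1 := ih (fun i => x i.castSucc) (fun i => hx _)
      have h2 := hx (Fin.last j)
      calc defect l (∑ i : Fin j, x i.castSucc + x (Fin.last j))
          ≤ (1 + 1 / (j:ℝ)) * defect l (∑ i : Fin j, x i.castSucc)
              + (1 + (j:ℝ)) * defect l (x (Fin.last j)) := defect_add_le l _ _ _ hj'
        _ ≤ (1 + 1 / (j:ℝ)) * ((j:ℝ) ^ 2 * D) + (1 + (j:ℝ)) * D := by gcongr
        _ = _ := by push_cast; field_simp; ring

theorem defect_nsmul_le (l : List (ZMod p)) (d : ZMod p) (j : ℕ) :
    defect l (j • d) ≤ (j : ℝ) ^ 2 * defect l d := by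
  have := defect_sum_le l _ (defect_nonneg l d) j (fun _ => d) (fun _ => le_rfl)
  simpa using this

/-- At most `1/θ` shifts have correlation at least `θ`. -/
theorem card_corr_ge (l : List (ZMod p)) (θ : ℝ) (hθ : 0 < θ) (s : Finset (ZMod p))
    (h : ∀ d ∈ s, θ ≤ corr l d) : (s.card : ℝ) ≤ 1 / θ := by
  rw [le_div_iff₀ hθ]
  calc (s.card : ℝ) * θ = ∑ _d ∈ s, θ := by simp
    _ ≤ ∑ d ∈ s, corr l d := Finset.sum_le_sum h
    _ ≤ ∑ d, corr l d := Finset.sum_le_univ_sum_of_nonneg (corr_nonneg l)
    _ = 1 := sum_corr l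

/-- Few nonzero shifts have a tiny defect (Cauchy-Davenport). -/
theorem card_small_defect (l : List (ZMod p)) (hM : 3 / (p : ℝ) < coll l) (J : ℕ)
    (H : Finset (ZMod p)) (h0 : (0 : ZMod p) ∉ H)
    (hH : ∀ d ∈ H, 2 * (J : ℝ) ^ 2 * defect l d ≤ coll l) :
    (H.card : ℝ) * J + 1 ≤ 2 / coll l := by
  classical
  have hp : p.Prime := Fact.out
  have hp0 : (0:ℝ) < p := by exact_mod_cast hp.pos
  have hMpos : 0 < coll l := lt_trans (by positivity) hM
  set A := insert (0 : ZMod p) H with hA
  -- iterated sumset
  have key : ∀ j : ℕ, j ≤ J → ∃ S : Finset (ZMod p), min p (j * H.card + 1) ≤ S.card ∧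
      ∀ d ∈ S, ∃ x : Fin j → ZMod p, (∀ i, x i ∈ A) ∧ d = ∑ i, x i := by
    intro j
    induction j with
    | zero => intro _; exact ⟨{0}, by simp, fun d hd => ⟨Fin.elim0, fun i => i.elim0, by simp_all⟩⟩
    | succ j ih =>
        intro hj
        obtain ⟨S, hS, hmem⟩ := ih (by omega)
        refine ⟨S + A, ?_, ?_⟩
        · have hSne : S.Nonempty := by
            have : 0 < min p (j * H.card + 1) := lt_min hp.pos (by omega)
            exact Finset.card_pos.1 (by omega)
          have hAne : A.Nonempty := ⟨0, Finset.mem_insert_self _ _⟩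
          have hcd := ZMod.cauchy_davenport hp hSne hAne
          have hAc : A.card = H.card + 1 := by simp [hA, h0]
          rw [hAc] at hcd
          have : (j + 1) * H.card = j * H.card + H.card := by ring
          rw [this]
          omega
        · intro d hd
          obtain ⟨a, ha, b, hb, rfl⟩ := Finset.mem_add.1 hd
          obtain ⟨x, hx, rfl⟩ := hmem a ha
          refine ⟨Fin.snoc x b, ?_, by simp [Fin.sum_univ_castSucc]⟩
          intro i
          refine Fin.lastCases ?_ ?_ i
          · simpa using hb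
          · intro k; simpa using hx k
  obtain ⟨S, hS, hmem⟩ := key J le_rfl
  have hge : ∀ d ∈ S, coll l / 2 ≤ corr l d := by
    intro d hd
    obtain ⟨x, hx, rfl⟩ := hmem d hd
    rcases Nat.eq_zero_or_pos J with hJ | hJ
    · subst hJ
      have h := defect_zero l
      simp only [Finset.univ_eq_empty, Finset.sum_empty]
      rw [defect] at h; linarith
    have hJ' : (0:ℝ) < J := by exact_mod_cast hJ
    have hb : ∀ i, defect l (x i) ≤ coll l / (2 * (J:ℝ) ^ 2) := by
      intro i
      rw [le_div_iff₀ (by positivity)]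
      rcases Finset.mem_insert.1 (hx i) with h | h
      · rw [h, defect_zero]; simp [hMpos.le]
      · have := hH _ h; linarith
    have h := defect_sum_le l _ (by positivity) J x hb
    have e : (J:ℝ) ^ 2 * (coll l / (2 * (J:ℝ) ^ 2)) = coll l / 2 := by field_simp
    rw [e, defect] at h
    linarith
  have hcard := card_corr_ge l _ (half_pos hMpos) S hge
  have e2 : 1 / (coll l / 2) = 2 / coll l := by field_simp
  rw [e2] at hcard
  have hlt : (2 / coll l : ℝ) < p := by
    rw [div_lt_iff₀ hMpos]
    rw [div_lt_iff₀ hp0] at hM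
    linarith
  have hSlt : S.card < p := by exact_mod_cast lt_of_le_of_lt hcard hlt
  have : J * H.card + 1 ≤ S.card := by
    rcases le_total p (J * H.card + 1) with h | h
    · rw [min_eq_left h] at hS; omega
    · rwa [min_eq_right h] at hS
  calc (H.card : ℝ) * J + 1 = ((J * H.card + 1 : ℕ) : ℝ) := by push_cast; ring
    _ ≤ (S.card : ℝ) := by exact_mod_cast this
    _ ≤ _ := hcard

/-- Erdős–Littlewood–Offord for collisions in `ZMod p`. -/
theorem coll_dichotomy (hp5 : 5 ≤ p) (l : List (ZMod p)) (hl : ∀ x ∈ l, x ≠ 0) :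
    coll l ≤ 3 / (p : ℝ) ∨ (l.length : ℝ) * coll l ^ 2 ≤ 18 := by
  induction l with
  | nil => right; simp
  | cons x l ih =>
      have hx : x ≠ 0 := hl x (List.mem_cons_self)
      have hmono := coll_cons_le x l
      by_cases hM' : coll (x :: l) ≤ 3 / (p : ℝ)
      · exact Or.inl hM'
      right
      push Not at hM'
      have hM : 3 / (p : ℝ) < coll l := lt_of_lt_of_le hM' hmono
      rcases ih (fun y hy => hl y (List.mem_cons_of_mem _ hy)) with h | h
      · linarith
      have hp : p.Prime := Fact.out
      have hp0 : (0:ℝ) < p := by exact_mod_cast hp.pos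
      have hMpos : 0 < coll l := lt_trans (by positivity) hM
      have hM1 := coll_le_one l
      have h2 : (2 : ZMod p) * x ≠ 0 := by
        refine mul_ne_zero ?_ hx
        intro h20
        have : ((2:ℕ) : ZMod p) = 0 := by simpa using h20
        rw [ZMod.natCast_eq_zero_iff] at this
        have := Nat.le_of_dvd (by norm_num) this
        omega
      set d := (2 : ZMod p) * x with hd
      set J := ⌈2 / coll l⌉₊ with hJ
      have hJge : 2 / coll l ≤ (J:ℝ) := Nat.le_ceil _
      have hJle : (J:ℝ) ≤ 3 / coll l := by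
        have h1 := Nat.ceil_lt_add_one (a := 2 / coll l) (by positivity)
        have h2 : (1:ℝ) ≤ 1 / coll l := by rw [le_div_iff₀ hMpos]; linarith
        have : 2 / coll l + 1 / coll l = 3 / coll l := by ring
        rw [← hJ] at h1
        linarith
      have hJp : J < p := by
        have : (3:ℝ) / coll l < p := by
          rw [div_lt_iff₀ hMpos]; rw [div_lt_iff₀ hp0] at hM; linarith
        exact_mod_cast lt_of_le_of_lt hJle this
      have hD : coll l / (2 * (J:ℝ) ^ 2) ≤ defect l d := by
        by_contra hcon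
        push Not at hcon
        have hJpos : (0:ℝ) < J := lt_of_lt_of_le (by positivity) hJge
        let S : Finset (ZMod p) := (Finset.range (J+1)).image (fun j : ℕ => j • d)
        have hSc : S.card = J + 1 := by
          rw [Finset.card_image_of_injOn, Finset.card_range]
          intro a ha b hb hab
          simp only [Finset.coe_range, Set.mem_Iio] at ha hb
          simp only [nsmul_eq_mul] at hab
          have h' := mul_right_cancel₀ h2 hab
          rw [ZMod.natCast_eq_natCast_iff'] at h'
          rwa [Nat.mod_eq_of_lt (by omega), Nat.mod_eq_of_lt (by omega)] at h'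
        have hge : ∀ e ∈ S, coll l / 2 ≤ corr l e := by
          intro e he
          obtain ⟨j, hj, rfl⟩ := Finset.mem_image.1 he
          have h := defect_nsmul_le l d j
          have hjJ : (j:ℝ) ≤ J := by
            exact_mod_cast Nat.lt_succ_iff.1 (Finset.mem_range.1 hj)
          have hjsq : (j:ℝ) ^ 2 ≤ (J:ℝ) ^ 2 := by gcongr
          have h' : (J:ℝ) ^ 2 * defect l d ≤ coll l / 2 := by
            rw [lt_div_iff₀ (by positivity)] at hcon
            nlinarith
          have h3 : (j:ℝ) ^ 2 * defect l d ≤ (J:ℝ) ^ 2 * defect l d :=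
            mul_le_mul_of_nonneg_right hjsq (defect_nonneg l d)
          have : defect l (j • d) = coll l - corr l (j • d) := rfl
          linarith
        have := card_corr_ge l _ (half_pos hMpos) S hge
        rw [hSc] at this
        have e2 : 1 / (coll l / 2) = 2 / coll l := by field_simp
        rw [e2] at this
        push_cast at this
        linarith
      have hstep : coll (x :: l) ≤ coll l * (1 - coll l ^ 2 / 36) := by
        rw [coll_cons]
        have : coll l ^ 3 / 18 ≤ coll l / (2 * (J:ℝ) ^ 2) := by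
          have hJpos : (0:ℝ) < J := lt_of_lt_of_le (by positivity) hJge
          have hJM : (J:ℝ) * coll l ≤ 3 := by rwa [le_div_iff₀ hMpos] at hJle
          rw [div_le_div_iff₀ (by norm_num) (by positivity)]
          have : ((J:ℝ) * coll l) ^ 2 ≤ 9 := by nlinarith [mul_nonneg hJpos.le hMpos.le]
          nlinarith
        nlinarith
      simp only [List.length_cons, Nat.cast_add, Nat.cast_one]
      set M := coll l
      set M' := coll (x :: l)
      have hM'0 : 0 ≤ M' := coll_nonneg _
      set u := M ^ 2 / 36 with hu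
      have hu1 : u ≤ 1 := by rw [hu]; nlinarith
      have hu0 : 0 ≤ u := by positivity
      have hsq : M' ^ 2 ≤ M ^ 2 * (1 - u) ^ 2 := by
        rw [← mul_pow]; gcongr
      have hMu : M ^ 2 = 36 * u := by rw [hu]; ring
      have hk : (0:ℝ) ≤ (l.length : ℝ) := by positivity
      calc ((l.length : ℝ) + 1) * M' ^ 2 ≤ ((l.length : ℝ) + 1) * (M ^ 2 * (1 - u) ^ 2) := by gcongr
        _ = ((l.length : ℝ) * M ^ 2 + M ^ 2) * (1 - u) ^ 2 := by ring
        _ ≤ (18 + 36 * u) * (1 - u) ^ 2 := by rw [hMu] at h ⊢; gcongr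
        _ ≤ 18 := by nlinarith [mul_nonneg hu0 hu0]

/-- One list split into the odd and the even positions. -/
def split2 : List (ZMod p) → List (ZMod p) × List (ZMod p)
  | [] => ([], [])
  | x :: l => (x :: (split2 l).2, (split2 l).1)

theorem law_eq_conv (l : List (ZMod p)) : ∀ s,
    law l s = ∑ t, law (split2 l).1 t * law (split2 l).2 (s - t) := by
  induction l with
  | nil =>
      intro s
      simp only [law, split2]
      rw [Finset.sum_eq_single (0 : ZMod p)] <;> simp +contextual
  | cons x l ih =>
      intro s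
      simp only [split2]
      set A := (split2 l).1
      set B := (split2 l).2
      have key : ∀ e : ZMod p, (∑ t, law B (t + e) * law A (s - t)) = law l (s + e) := by
        intro e
        rw [ih (s + e)]
        refine Fintype.sum_equiv (Equiv.subLeft s) _ _ (fun t => ?_)
        simp only [Equiv.subLeft_apply]
        rw [mul_comm]
        congr 2
        ring
      simp only [law, div_mul_eq_mul_div, add_mul, ← Finset.sum_div, Finset.sum_add_distrib,
        sub_eq_add_neg (a := s) (b := x), ← key]
      congr 1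
      congr 1
      refine Finset.sum_congr rfl (fun t _ => ?_)
      rw [sub_eq_add_neg (a := t)]

theorem law_sq_le (l : List (ZMod p)) (s : ZMod p) :
    (law l s) ^ 2 ≤ coll (split2 l).1 * coll (split2 l).2 := by
  rw [law_eq_conv]
  refine le_trans (Finset.sum_mul_sq_le_sq_mul_sq _ _ _) (le_of_eq ?_)
  unfold coll
  congr 1
  exact Fintype.sum_equiv (Equiv.subLeft s) _ _ (fun _ => rfl)

theorem law_le_sqrt (l : List (ZMod p)) (s : ZMod p) :
    law l s ≤ Real.sqrt (coll (split2 l).1 * coll (split2 l).2) :=
  Real.le_sqrt_of_sq_le (law_sq_le l s)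

theorem law_le_coll_right (l : List (ZMod p)) (s : ZMod p) :
    (law l s) ^ 2 ≤ coll (split2 l).2 := by
  refine le_trans (law_sq_le l s) ?_
  have := coll_le_one (split2 l).1
  exact mul_le_of_le_one_left (coll_nonneg _) this

theorem coll_le_of_split (l : List (ZMod p)) :
    coll l ≤ coll (split2 l).1 ∧ coll l ≤ coll (split2 l).2 := by
  have gen : ∀ (A B : List (ZMod p)),
      ∑ s, (∑ t, law A t * law B (s - t)) ^ 2 ≤ coll B := by
    intro A B
    calc ∑ s, (∑ t, law A t * law B (s - t)) ^ 2
        ≤ ∑ s, ∑ t, law A t * (law B (s - t)) ^ 2 := by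
          apply Finset.sum_le_sum; intro s _
          have h := Finset.sum_sq_le_sum_mul_sum_of_sq_le_mul Finset.univ
            (r := fun t => law A t * law B (s - t)) (f := fun t => law A t)
            (g := fun t => law A t * (law B (s - t)) ^ 2)
            (fun t _ => law_nonneg A t)
            (fun t _ => mul_nonneg (law_nonneg A t) (by positivity)) (fun t _ => le_of_eq (by ring))
          rwa [sum_law, one_mul] at h
      _ = ∑ t, law A t * coll B := by
          rw [Finset.sum_comm]
          apply Finset.sum_congr rfl; intro t _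
          rw [← Finset.mul_sum]
          congr 1
          exact Fintype.sum_equiv (Equiv.subRight t) _ _ (fun _ => rfl)
      _ = coll B := by rw [← Finset.sum_mul, sum_law, one_mul]
  constructor
  · calc coll l = ∑ s, (∑ t, law (split2 l).2 t * law (split2 l).1 (s - t)) ^ 2 := by
          apply Finset.sum_congr rfl; intro s _
          congr 1
          rw [law_eq_conv]
          refine Fintype.sum_equiv (Equiv.subLeft s) _ _ (fun t => ?_)
          simp only [Equiv.subLeft_apply]
          rw [mul_comm]
          congr 2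
          ring
      _ ≤ _ := gen _ _
  · calc coll l = ∑ s, (∑ t, law (split2 l).1 t * law (split2 l).2 (s - t)) ^ 2 := by
          apply Finset.sum_congr rfl; intro s _
          rw [law_eq_conv]
      _ ≤ _ := gen _ _

theorem law_le_of_tail (A : List (ZMod p)) : ∀ (l : List (ZMod p)) (c : ℝ),
    (∀ s, law l s ≤ c) → ∀ s, law (A ++ l) s ≤ c := by
  induction A with
  | nil => intro l c h s; exact h s
  | cons x A ih =>
      intro l c h s
      have h1 := ih l c h (s - x)
      have h2 := ih l c h (s + x)
      simp only [List.cons_append, law]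
      linarith

theorem law_three (hp5 : 5 ≤ p) (a b c : ZMod p) (ha : a ≠ 0) (hb : b ≠ 0) (hc : c ≠ 0)
    (s : ZMod p) : law [a, b, c] s ≤ 3 / 8 := by
  have h2 : ∀ y : ZMod p, y ≠ 0 → y + y ≠ 0 := by
    intro y hy h
    have h20 : (2 : ZMod p) ≠ 0 := by
      intro h20
      have : ((2:ℕ) : ZMod p) = 0 := by simpa using h20
      rw [ZMod.natCast_eq_zero_iff] at this
      have := Nat.le_of_dvd (by norm_num) this
      omega
    exact mul_ne_zero h20 hy (by rw [two_mul]; exact h)
  set e : ZMod p → ℕ := fun t => if t = 0 then 1 else 0 with he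
  have hl : law [a, b, c] s = ((e (s-a-b-c) + e (s-a-b+c) + e (s-a+b-c) + e (s-a+b+c)
      + e (s+a-b-c) + e (s+a-b+c) + e (s+a+b-c) + e (s+a+b+c) : ℕ) : ℝ) / 8 := by
    simp only [law, he]; push_cast; ring
  rw [hl]
  have key : ∀ (t y : ZMod p), y ≠ 0 → e (t - y) + e (t + y) ≤ 1 := by
    intro t y hy
    simp only [he]
    split_ifs with h1 h3 h4
    · exact absurd (by linear_combination h3 - h1) (h2 y hy)
    all_goals simp
  have k1 := key (s-a-b) c hc
  have k2 := key (s-a+b) c hc
  have k3 := key (s+a-b) c hc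
  have k4 := key (s+a+b) c hc
  have hb' : ∀ (u v : ZMod p), e (u - b + v) + e (u + b + v) ≤ 1 := by
    intro u v
    have := key (u + v) b hb
    rwa [show u + v - b = u - b + v by ring, show u + v + b = u + b + v by ring] at this
  have ha' : ∀ (v : ZMod p), e (s - a + v) + e (s + a + v) ≤ 1 := by
    intro v
    have := key (s + v) a ha
    rwa [show s + v - a = s - a + v by ring, show s + v + a = s + a + v by ring] at this
  have m1 := hb' (s-a) (-c)
  have m2 := hb' (s-a) c
  have m3 := hb' (s+a) (-c)
  have m4 := hb' (s+a) c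
  simp only [← sub_eq_add_neg] at m1 m3
  have n1 := ha' (-b-c)
  have n2 := ha' (-b+c)
  have n3 := ha' (b-c)
  have n4 := ha' (b+c)
  simp only [show ∀ u : ZMod p, u + (-b-c) = u-b-c from fun u => by ring,
    show ∀ u : ZMod p, u + (-b+c) = u-b+c from fun u => by ring,
    show ∀ u : ZMod p, u + (b-c) = u+b-c from fun u => by ring,
    show ∀ u : ZMod p, u + (b+c) = u+b+c from fun u => by ring] at n1 n2 n3 n4
  have eo : ∀ t, e t ≤ 1 := by intro t; simp only [he]; split_ifs <;> simp
  have hodd : ¬ (e (s-a-b-c) = 1 ∧ e (s-a+b+c) = 1 ∧ e (s+a-b+c) = 1 ∧ e (s+a+b-c) = 1) := by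
    simp only [he]
    rintro ⟨p1, p2, p3, p4⟩
    simp only [ite_eq_left_iff, zero_ne_one, imp_false, not_not] at p1 p2 p3 p4
    have q1 : (b + c) + (b + c) = 0 := by linear_combination p2 - p1
    have q2 : (a + c) + (a + c) = 0 := by linear_combination p3 - p1
    have q3 : (a + b) + (a + b) = 0 := by linear_combination p4 - p1
    have r1 : b + c = 0 := by by_contra h; exact h2 _ h q1
    have r2 : a + c = 0 := by by_contra h; exact h2 _ h q2
    have r3 : a + b = 0 := by by_contra h; exact h2 _ h q3
    exact h2 a ha (by linear_combination r2 + r3 - r1)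
  have heven : ¬ (e (s-a-b+c) = 1 ∧ e (s-a+b-c) = 1 ∧ e (s+a-b-c) = 1 ∧ e (s+a+b+c) = 1) := by
    simp only [he]
    rintro ⟨p1, p2, p3, p4⟩
    simp only [ite_eq_left_iff, zero_ne_one, imp_false, not_not] at p1 p2 p3 p4
    have q1 : (b - c) + (b - c) = 0 := by linear_combination p2 - p1
    have q2 : (a - c) + (a - c) = 0 := by linear_combination p3 - p1
    have q3 : (a + b) + (a + b) = 0 := by linear_combination p4 - p1
    have r1 : b - c = 0 := by by_contra h; exact h2 _ h q1
    have r2 : a - c = 0 := by by_contra h; exact h2 _ h q2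
    have r3 : a + b = 0 := by by_contra h; exact h2 _ h q3
    exact h2 a ha (by linear_combination r2 + r3 - r1)
  have o1 := eo (s-a-b-c); have o2 := eo (s-a-b+c); have o3 := eo (s-a+b-c); have o4 := eo (s-a+b+c)
  have o5 := eo (s+a-b-c); have o6 := eo (s+a-b+c); have o7 := eo (s+a+b-c); have o8 := eo (s+a+b+c)
  have : e (s-a-b-c) + e (s-a-b+c) + e (s-a+b-c) + e (s-a+b+c)
      + e (s+a-b-c) + e (s+a-b+c) + e (s+a+b-c) + e (s+a+b+c) ≤ 3 := by omega
  gcongr
  exact_mod_cast this

theorem law_nonzero_le (hp5 : 5 ≤ p) (l : List (ZMod p)) (hl : ∀ x ∈ l, x ≠ 0) (h3 : 3 ≤ l.length)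
    (s : ZMod p) : law l s ≤ 3 / 8 := by
  obtain ⟨A, B, rfl, hB⟩ : ∃ A B, l = A ++ B ∧ B.length = 3 :=
    ⟨l.take (l.length - 3), l.drop (l.length - 3), (List.take_append_drop _ _).symm,
      by simp; omega⟩
  apply law_le_of_tail
  intro s
  match B, hB with
  | [a, b, c], _ =>
    exact law_three hp5 a b c (hl a (by simp)) (hl b (by simp)) (hl c (by simp)) s

omit [Fact p.Prime] in
theorem split2_spec (l : List (ZMod p)) :
    (∀ x ∈ (split2 l).1, x ∈ l) ∧ (∀ x ∈ (split2 l).2, x ∈ l) ∧
    2 * (split2 l).1.length = l.length + l.length % 2 ∧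
    2 * (split2 l).2.length + l.length % 2 = l.length := by
  induction l with
  | nil => simp [split2]
  | cons x l ih =>
      obtain ⟨h1, h2, h3, h4⟩ := ih
      refine ⟨?_, ?_, ?_, ?_⟩
      · intro y hy
        simp only [split2, List.mem_cons] at hy ⊢
        rcases hy with h | h
        · exact Or.inl h
        · exact Or.inr (h2 y h)
      · intro y hy
        exact List.mem_cons_of_mem _ (h1 y hy)
      · simp only [split2, List.length_cons]; omega
      · simp only [split2, List.length_cons]; omega

theorem law_dense_le (hp5 : 5 ≤ p) (l : List (ZMod p)) (hl : ∀ x ∈ l, x ≠ 0)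
    (hk : 2 ≤ l.length) (hkp : l.length ≤ p) (s : ZMod p) :
    (law l s) ^ 2 * ((l.length / 2 : ℕ) : ℝ) ≤ 18 := by
  obtain ⟨h1, h2, h3, h4⟩ := split2_spec l
  set h := l.length / 2 with hh
  have hpos : 0 < h := by omega
  have hA : h ≤ (split2 l).1.length := by omega
  have hB : h ≤ (split2 l).2.length := by omega
  have hp0 : (0:ℝ) < p := by
    have : 0 < p := by omega
    exact_mod_cast this
  have bound : ∀ m : List (ZMod p), (∀ x ∈ m, x ≠ 0) → h ≤ m.length →
      (h:ℝ) * coll m ^ 2 ≤ 18 := by
    intro m hm hlen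
    rcases coll_dichotomy hp5 m hm with hc | hc
    · have h0 := coll_nonneg m
      have hhp : (h:ℝ) ≤ p := by exact_mod_cast (by omega : h ≤ p)
      rw [le_div_iff₀ hp0] at hc
      have hm1 := coll_le_one m
      have hmul : (h:ℝ) * coll m ≤ (p:ℝ) * coll m := mul_le_mul_of_nonneg_right hhp h0
      nlinarith
    · refine le_trans ?_ hc
      gcongr
  have bA := bound _ (fun x hx => hl x (h1 x hx)) hA
  have bB := bound _ (fun x hx => hl x (h2 x hx)) hB
  have hsq := law_sq_le l s
  have key : (law l s) ^ 4 * (h:ℝ) ^ 2 ≤ 18 ^ 2 := by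
    calc (law l s) ^ 4 * (h:ℝ) ^ 2 = ((law l s) ^ 2) ^ 2 * (h:ℝ) ^ 2 := by ring
      _ ≤ (coll (split2 l).1 * coll (split2 l).2) ^ 2 * (h:ℝ) ^ 2 := by gcongr
      _ = ((h:ℝ) * coll (split2 l).1 ^ 2) * ((h:ℝ) * coll (split2 l).2 ^ 2) := by ring
      _ ≤ 18 * 18 := by
          gcongr
      _ = _ := by norm_num
  have : ((law l s) ^ 2 * (h:ℝ)) ^ 2 ≤ 18 ^ 2 := by rw [mul_pow, ← pow_mul]; exact key
  exact abs_le_of_sq_le_sq' this (by norm_num) |>.2

end Vale.Agent.P160
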